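import Vale.Agent.P352X.R.CONK.Spec
import Vale.Agent.P352Z.R.Ev

/-!
# P352Z, block CONK: vocabulary and sub-rows
-/

set_option linter.all false

open MeasureTheory Filter Topology
open scoped SchwartzMap ComplexConjugate ENNReal ContDiff

namespace Vale.Agent.P352X.ZZ.CK

open Vale.Agent.P352 Vale.Agent.P352.GF Vale.Agent.P352.BW Vale.Agent.P352.H246
open Vale.Agent.P352.H496 Vale.Agent.P352.H755 Vale.Agent.P352.H15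
open UniformSpace (Completion)
open Complex (I)

noncomputable section

export Vale.Agent.P352X.CK (pol qol wt sq2 sqm thn n2 da eu U1 U2 swp VIT PRIM ANN)
open Ev (evF barF snF InF TT adS)

variable {D : Type*} [NormedAddCommGroup D] [InnerProductSpace ℂ D]

/-- `w0 w` as a continuous linear map -/
def w0L (w : I2 → I2 → S2 →L[ℂ] Completion D) : S2 →L[ℂ] Completion D := ∑ k, ∑ l, ∑ p, ∑ q,
  ((eta k * va k * (eta l * va l) * (eta p * va p) : ℝ) : ℂ) • w (k, l) (p, q) ∘L p22 q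

/-- the order `ϑ T_aa` of a kernel `W`; the first point carries `T_aa` -/
def w1L (W : I2 → I2 → S2 →L[ℂ] Completion D) : S2 →L[ℂ] Completion D :=
  w0L fun K M => W M K ∘L swp

variable (c : Ctx D)

/-- the statement of row `WK` for a given kernel -/
def IsW (W : I2 → I2 → S2 →L[ℂ] Completion D) : Prop :=
  (∀ K M (f g : Sch) (F : S2), (∀ x y, F (x, y) = f x * g y) →
    W K M F = ((c.T K.1 K.2 (ev f) (c.T M.1 M.2 (ev g) c.Q.vac) : D) : Completion D)) ∧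
  ∀ s L a K M (F G : S2), 0 < s → IsLor L → (∀ x y, G (x, y) = F (sim s L a x, sim s L a y)) →
    W K M F = ∑ K', ∑ M', (L2 L K' K * L2 L M' M) • Ug c.Q s L a (W K' M' G)

/-- `T_aa` -/
def Taa (h : Fn) (v : D) : D := c.Tf (hk va va h) v

/-- the component orthogonal to the vacuum -/
def perp (v : Completion D) : Completion D := v - inner ℂ c.Om v • c.Om

/-- covariance of the type of `T_aa ϑ`, up to multiples of the vacuum -/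
structure Cv (R : S2 →L[ℂ] Completion D) : Prop where
  tra : ∀ a (F G : S2), (∀ x y, G (x, y) = F (x + a, y + a)) →
    ∃ κ : ℂ, R F = Ut c.Q a (R G) + κ • c.Om
  sca : ∀ r s (F G : S2), 0 < r → 0 < s → (∀ x y, G (x, y) = F (scp r s x, scp r s y)) →
    ∃ κ : ℂ, R F = ((s / r ^ 2 : ℝ) : ℂ) • Usc c.Q r s (R G) + κ • c.Om

/-- bounds for `w`, `M^b w`, `P_b w`, `M^b P_b w` -/
structure Lw (w : Completion D) (Λ : ℝ) : Prop where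
  dg : Dm (Gb c.Q) w
  dp : Dm (Pb c.Q) w
  dgp : Dm (Gb c.Q) (gen (Pb c.Q) w)
  n0 : ‖w‖ ≤ Λ
  ng : ‖gen (Gb c.Q) w‖ ≤ Λ
  np : ‖gen (Pb c.Q) w‖ ≤ Λ
  ngp : ‖gen (Gb c.Q) (gen (Pb c.Q) w)‖ ≤ Λ

/-- bounds for the powers of `P_b` -/
def Pk (k : ℕ) (ψ : Completion D) (Λ : ℝ) : Prop :=
  (∀ j < k, Dm (Pb c.Q) ((gen (Pb c.Q))^[j] ψ)) ∧ ∀ j ≤ k, ‖(gen (Pb c.Q))^[j] ψ‖ ≤ Λ

/-- the domains of `K`, `M`, `P` -/
def DK (ψ : Completion D) : Prop := Dm c.SK ψ ∧ (∀ i, Dm (Mi c.Q i) ψ) ∧ Dm (Pa c.Q) ψ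

/-- smooth vectors for the group generated by `B`, `P_b`, `M^b` -/
def Sm (v : Completion D) : Prop := ContDiff ℝ ∞ fun q => c.gq q v

/-- the sum of the norms of the derivatives of order at most `k` -/
def nq (k : ℕ) (v : Completion D) : ℝ :=
  ∑ j ∈ Finset.range (k + 1), ‖iteratedFDeriv ℝ j (fun q => c.gq q v) 0‖

/-- the error term of row `CONK` -/
def Err (w : I2 → I2 → S2 →L[ℂ] Completion D) (κ f : P3 → ℝ) (ρ θ1 θ : ℝ → ℝ) (δ L : ℝ)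
    (ψ : Completion D) : ℂ :=
  inner ℂ (w0L w (pairF sq2 κ f ρ θ1 δ L)) ψ - (∫ t, ρ t : ℝ) * c.AbK f (abv θ1 θ δ) ψ

/-- the data of row `CONK`; the crossing leg is supported in `al < a0`, `-u0 < be` -/
structure Dat (w W : I2 → I2 → S2 →L[ℂ] Completion D) (κ f : P3 → ℝ) (ρ θ1 θ : ℝ → ℝ)
    (a0 u0 : ℝ) : Prop where
  tp : TP2 c.Q c.T false w
  isW : IsW c W
  cut : Cut κ
  tf : Tst f
  tr : Tst ρ
  sr : tsupport ρ ⊆ Set.Icc (-1 / 2) (1 / 2)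
  t1 : Tst θ1
  bump : Bump θ
  ha : a0 = -1
  hu : 0 < u0
  sf : tsupport f ⊆ {y | y.1 < a0}
  s1 : tsupport θ1 ⊆ Set.Ioi (-u0)

/-- a good operator below the plane and to the right of the crossing leg -/
structure RX (a0 u0 : ℝ) (X : Completion D →L[ℂ] Completion D) : Prop where
  loc : ∃ y r, 0 < r ∧ dc y r ⊆ {z | be z < -u0 ∧ a0 + 2 < al z} ∧ X ∈ c.N (dc y r)
  good : c.Good X
  perp : inner ℂ c.Om (X c.Om) = 0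

/-- the spectator `ψ` can be moved past the two legs -/
structure Tri (f : P3 → ℝ) (θ1 : ℝ → ℝ) (a u0 : ℝ) (ψ : Completion D)
    (wR wL : Fin 4 → Completion D) : Prop where
  right : ∀ j h, In Set.univ h →
    inner ℂ ((c.Thf (pr (wt (pol j) f) θ1) (Taa c h c.Q.vac) : D) : Completion D) ψ =
      inner ℂ ((Taa c h c.Q.vac : D) : Completion D) (wR j)
  left : ∀ j h, In {z | al z < -a ∧ -u0 < be z} h →
    inner ℂ ((Taa c h (c.Thf (pr (wt (pol j) f) θ1) c.Q.vac) : D) : Completion D) ψ =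
      inner ℂ (wL j) ((Taa c (bar h) c.Q.vac : D) : Completion D)

/-! ## tools -/

/-- row NORM: norms of vectors created by one field -/
def NORM : Prop := ∃ C : ℝ, 0 ≤ C ∧ ∀ (g : P3 → ℂ) (φ : ℝ → ℂ), Dc g → Dc φ →
  ‖c.Tv (hk va va (pf g φ))‖ ≤ C * n2 (da (da g)) * n2 φ ∧
  (∀ s, 0 < s → c.nu (c.Tv (hk va va (pf g φ))) {p | al p < s} ≤
    ENNReal.ofReal ((C * n2 (da (da g)) * ∫ t, ‖φ t‖) ^ 2 * s)) ∧
  ‖c.Th (pf g φ)‖ ≤ C * n2 (da (da g)) * n2 (deriv φ)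

/-- row TAIL: far annuli of the plane, uniformly in the profile -/
def TAIL : Prop := ∃ κ : ℝ, 0 < κ ∧ ∀ g, Tst g → ∃ C : ℝ, 0 ≤ C ∧ ∀ ρ (A : ℝ) w (Λ : ℝ), Tst ρ →
  tsupport ρ ⊆ Set.Icc (-1) 1 → 1 ≤ A → Lw c w Λ →
  ‖inner ℂ (c.Tv (hk va va (pr (kL g A) ρ))) w‖ ≤ C * A ^ (-1 - κ) * (∫ t, |ρ t|) * Λ

/-- row CV: covariance and orderings -/
structure CV : Prop where
  w0 : ∀ (w : I2 → I2 → S2 →L[ℂ] Completion D) F, w0 w F = w0L w F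
  cvw : ∀ e w, TP2 c.Q c.T e w → Cv c (w0L w)
  cvW : ∀ W, IsW c W → Cv c (w0L W) ∧ Cv c (w1L W)
  late : ∀ w W (F : S2), TP2 c.Q c.T false w → IsW c W → tsupport F ⊆ U1 → w0L w F = w1L W F
  early : ∀ w W (F : S2), TP2 c.Q c.T false w → IsW c W → tsupport F ⊆ U2 → w0L w F = w0L W F
  prod : ∀ W (h g : Fn) (F : S2), IsW c W → IsTest h → IsTest g → (∀ x y, F (x, y) = h x * g y) →
    w0L W F = ((Taa c h (c.Thf g c.Q.vac) : D) : Completion D) ∧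
    w1L W F = ((c.Thf g (Taa c h c.Q.vac) : D) : Completion D)
  pair : ∀ W (κ f : P3 → ℝ) (ρ θ1 : ℝ → ℝ) (δ L : ℝ), IsW c W → Tst κ → Tst f → Tst ρ → Tst θ1 →
    0 < δ → 0 < L →
    w0L W (pairF sq2 κ f ρ θ1 δ L) = ∑ j, ((Taa c (pr (wt (qol j) (kL κ L)) (dlt δ ρ))
      (c.Thf (pr (wt (pol j) f) θ1) c.Q.vac) : D) : Completion D) ∧
    w1L W (pairF sq2 κ f ρ θ1 δ L) = ∑ j, ((c.Thf (pr (wt (pol j) f) θ1)
      (Taa c (pr (wt (qol j) (kL κ L)) (dlt δ ρ)) c.Q.vac) : D) : Completion D)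

/-- row FLOW: thin tubes -/
def FLOW : Prop := ∀ (R : S2 →L[ℂ] Completion D) (m : R2 → ℝ) (κ f : P3 → ℝ) (ρ θ1 θ : ℝ → ℝ)
  (A : ℝ), Cv c R → Tst m → Tst κ → Tst f → Tst ρ → Tst θ1 → Tst θ → 0 < A →
  Tendsto (fun δ : ℝ => perp c (R (pairF (sqm m (Real.sqrt (δ * A))) κ f ρ (thn θ1 θ δ) δ A)))
    (𝓝[>] 0) (𝓝 0)

/-- row NEAR: the near part, uniformly in the width of the profile -/
def NEAR : Prop := ∀ R : S2 →L[ℂ] Completion D, Cv c R → ∃ k m : ℕ, ∀ (κ f : P3 → ℝ) (θ1 : ℝ → ℝ),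
  Tst κ → Tst f → Tst θ1 → ∃ C : ℝ, 0 ≤ C ∧ ∀ ρ (δ A : ℝ) ψ (Λ : ℝ), Tst ρ →
  tsupport ρ ⊆ Set.Icc (-1) 1 → 0 < δ → δ ≤ 1 → 1 ≤ A → inner ℂ c.Om ψ = 0 → Pk c k ψ Λ →
  ‖inner ℂ (R (pairF sq2 κ f ρ θ1 δ A)) ψ‖ ≤ C * A ^ m * (∫ t, |ρ t|) * Λ

/-- row DT: `ϑ(g φ)` and `Tht((da g)^, φ)` -/
def DT : Prop := ∀ ell c0, Ell c ell c0 → ∀ g : P3 → ℂ, Dc g → MemLp (ft3 (da g)) 2 m3 ∧
  ∃ C : ℝ, 0 ≤ C ∧ ∀ φ, Tst φ → ‖c.Th (pf g (cx φ)) - Tht ell (ft3 (da g)) φ‖ ≤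
    C * (n2 (cx fun t => t * deriv φ t) + n2 (cx φ))

/-- row K0T: the geometric part `K0 - 2 x.M + |x|^2 P` on `ϑ(g φ)` is bounded -/
def K0T : Prop := ∀ f : P3 → ℝ, Tst f → ∃ C : ℝ, 0 ≤ C ∧ ∀ φ, Tst φ → ∃ χ,
  Gn c.S0 (c.Th (pr f φ)) (χ + (2 : ℂ) • ∑ i, gen (Mi c.Q i) (c.Th (pr (fun y => y.2 i * f y) φ)) -
    gen (Pa c.Q) (c.Th (pr (fun y => d2 y.2 y.2 * f y) φ))) ∧
  ‖χ‖ ≤ C * (n2 (cx (deriv fun t => t * φ t)) + n2 (cx (deriv fun t => t ^ 2 * φ t)))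

/-- row AB: the form above the plane is bounded -/
def AB : Prop := ∀ (f : P3 → ℝ) (θ1 θ : ℝ → ℝ), Tst f → Tst θ1 → Bump θ →
  ∃ C δ0 : ℝ, 0 ≤ C ∧ 0 < δ0 ∧ ∀ δ ψ, 0 < δ → δ ≤ δ0 → DK c ψ →
    ‖c.AbK f (abv θ1 θ δ) ψ‖ ≤ C * (‖ψ‖ + ‖gen c.SK ψ‖)

/-- row SMV: smooth vectors and good operators -/
structure SMV : Prop where
  sub : ∀ v w, Sm c v → Sm c w → Sm c (v - w)
  dom : ∀ v, Sm c v → Dm (Bo c.Q) v ∧ Dm (Pb c.Q) v ∧ Dm (Gb c.Q) v ∧ Sm c (gen (Bo c.Q) v) ∧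
    Sm c (gen (Pb c.Q) v) ∧ Sm c (gen (Gb c.Q) v)
  lw : ∀ v, Sm c v → Lw c v (nq c 2 v) ∧ ‖gen (Bo c.Q) v‖ ≤ nq c 1 v ∧ ∀ k, Pk c k v (nq c k v)
  adj : ∀ X, c.Good X → c.Good (star X)
  scal : ∀ X (a : ℂ), c.Good X → c.Good (X - a • 1)
  app : ∀ X v, c.Good X → Sm c v → Sm c (X v)
  vac : Sm c c.Om
  lwx : ∀ X, c.Good X → ∃ C : ℝ, 0 ≤ C ∧ ∀ v Λ, Lw c v Λ → Lw c (X v) (C * Λ)
  fld : ∀ y r (F : Ix → Ix → Sch) (m : ℕ) (η : ℝ), InF (dc y r) (evF F) → 0 < η →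
    ∃ (F' : Ix → Ix → Sch) (X : ℕ → Completion D →L[ℂ] Completion D),
    InF (dc y r) (evF F') ∧ snF m (F' - F) < η ∧
    (∀ n, X n ∈ c.N (dc y r) ∧ c.Good (X n) ∧ inner ℂ c.Om (X n c.Om) = 0) ∧ ∀ (v : D) (k : ℕ),
      Tendsto (fun n => nq c k (X n v - (c.Tf (evF F') v : D))) atTop (𝓝 0) ∧
      Tendsto (fun n => nq c k (star (X n) v - (c.Tf (barF (evF F')) v : D))) atTop (𝓝 0)

/-- row LWF: the same bounds for vectors created by fields -/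
structure LWF : Prop where
  oneT : ∃ (m : ℕ) (C : ℝ), 0 ≤ C ∧ ∀ G, Lw c (c.Tv (evF G)) (C * snF m G)
  pkT : ∀ k, ∃ (m : ℕ) (C : ℝ), 0 ≤ C ∧ ∀ G, Pk c k (c.Tv (evF G)) (C * snF m G)
  twoT : ∃ (m : ℕ) (C : ℝ), 0 ≤ C ∧ ∀ F G,
    Lw c ((c.Tf (evF F) (c.Tf (evF G) c.Q.vac) : D) : Completion D) (C * snF m F * snF m G)
  thin : ∀ (f : P3 → ℝ) (θ1 θ : ℝ → ℝ) (m : ℕ), Tst f → Tst θ1 → Tst θ → ∃ C : ℝ, 0 ≤ C ∧
    ∀ δ, 0 < δ → δ ≤ 1 → ∃ g : Sch, ev g = pr f (thn θ1 θ δ) ∧ sn m g ≤ C * δ⁻¹ ^ m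

/-- row KP: pairs in a double cone below the plane and the operators `K_y` -/
structure KP : Prop where
  dom : ∀ y r (u0 d0 : ℝ), 0 < r → 0 < u0 → 0 < d0 → dc y r ⊆ {z | be z < -u0 ∧ d0 < al z} →
    ∃ C : ℝ, 0 ≤ C ∧ ∀ ψ ψ', Pr (c.N (dc y r)) c.Om ψ ψ' → Dm (Bo c.Q) ψ →
      DK c ψ ∧ ‖gen c.SK ψ‖ ≤ C * (‖ψ‖ + ‖ψ'‖ + ‖gen (Bo c.Q) ψ‖)
  shift : ∀ y r (u0 d0 : ℝ) X (x : R2), 0 < r → 0 < u0 → 0 < d0 →
    dc y r ⊆ {z | be z < -u0 ∧ d0 < al z} → X ∈ c.N (dc y r) → c.Good X →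
    ContinuousOn (fun u : ℝ => gen (c.Ky (tv x + u • vb)) (X c.Om)) (Set.Ioo (-u0) u0) ∧
    ∀ η > 0, ∀ᶠ u in 𝓝 (0 : ℝ),
      ‖gen (c.Ky (tv x + u • vb)) (X c.Om) - gen (c.Ky (tv x)) (X c.Om)‖ ≤ η * Real.sqrt |u|

/-- row TRI: hermiticity and locality -/
structure TRI : Prop where
  herm : ∀ h (u v : D), IsTest h → inner ℂ (Taa c h u) v = inner ℂ u (Taa c (bar h) v) ∧
    inner ℂ (c.Thf h u) v = inner ℂ u (c.Thf (bar h) v)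
  comT : ∀ (a u0 : ℝ) G H (v : D), InF {z | al z < a ∧ -u0 < be z} H →
    InF {z | be z ≤ -u0 ∧ a ≤ al z} G → c.Tf G (c.Tf H v) = c.Tf H (c.Tf G v)
  op : ∀ (a u0 : ℝ) y r X h (u v : D), dc y r ⊆ {z | be z < -u0 ∧ a < al z} → X ∈ c.N (dc y r) →
    In {z | al z < a ∧ -u0 < be z} h →
    inner ℂ ((c.Thf (bar h) u : D) : Completion D) (X (v : Completion D)) =
      inner ℂ (u : Completion D) (X ((c.Thf h v : D) : Completion D)) ∧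
    inner ℂ ((Taa c (bar h) u : D) : Completion D) (X (v : Completion D)) =
      inner ℂ (u : Completion D) (X ((Taa c h v : D) : Completion D))
  fldT : ∀ (f : P3 → ℝ) (θ1 : ℝ → ℝ) (a u0 : ℝ) G, Tst f → Tst θ1 →
    InF {z | be z ≤ -u0 ∧ -a ≤ al z} G → Tri c f θ1 a u0 (c.Tv G)
      (fun j => (c.Thf (pr (wt (pol j) f) θ1) (c.Tf G c.Q.vac) : D))
      (fun j => (c.Tf (barF G) (c.Thf (pr (wt (pol j) f) θ1) c.Q.vac) : D))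
  opt : ∀ (f : P3 → ℝ) (θ1 : ℝ → ℝ) (a a0 u0 : ℝ) y r X, Tst f → Tst θ1 →
    tsupport f ⊆ {y | y.1 < a0} → tsupport θ1 ⊆ Set.Ioi (-u0) → -a ≤ a0 →
    dc y r ⊆ {z | be z < -u0 ∧ a0 < al z} → X ∈ c.N (dc y r) → Tri c f θ1 a u0 (X c.Om)
      (fun j => X (c.Th (pr (wt (pol j) f) θ1))) (fun j => star X (c.Th (pr (wt (pol j) f) θ1)))

/-- row `BP` for `a0 = 0` -/
def BP0 : Prop := ∀ (u0 d0 : ℝ) y1 r1 X f1 κ ρ (y : R2), 0 < d0 → 0 < r1 →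
  dc y1 r1 ⊆ {z | be z < -u0 ∧ d0 < al z} → X ∈ c.N (dc y1 r1) → c.Good X →
  In {z | u0 < be z ∧ al z < -d0} f1 → Cut κ → Tst ρ → tsupport ρ ⊆ Set.Ioo (-u0) u0 →
  Tendsto (fun L => inner ℂ ((c.Tf (hk va va (pr (fun q => d2 (q.2 - y) (q.2 - y) * kL κ L q) ρ))
      (c.Thf (bar f1) c.Q.vac) : D) : Completion D) (X c.Om)) atTop
    (𝓝 (∫ u, (ρ u : ℂ) * inner ℂ (c.Th (bar f1)) (gen (c.Ky (tv y + u • vb)) (X c.Om))))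

/-- row `CONK` for a crossing leg to the left of the centre of the cut off -/
def CONK0 : Prop := ∀ w (κ f : P3 → ℝ) (ρ θ1 θ : ℝ → ℝ) (f3 : Fn),
  TP2 c.Q c.T false w → Cut κ → Tst f → tsupport f ⊆ {y | y.1 < -1} → Tst ρ →
  tsupport ρ ⊆ Set.Icc (-1 / 2) (1 / 2) → Tst θ1 →
  Bump θ → In {z | be z < 0} f3 → ∀ η > 0, ∀ᶠ δ in 𝓝[>] (0 : ℝ), ∀ᶠ L in atTop,
    ‖inner ℂ (w0 w (pairF (fun x => d2 x x) κ f ρ θ1 δ L)) (c.Th f3) -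
      (∫ t, ρ t : ℝ) * c.AbK f (abv θ1 θ δ) (c.Th f3)‖ ≤ η

/-- the tools of the block -/
structure Tools : Prop extends T3 c where
  prim : PRIM
  ann : ANN
  norm : NORM c
  tail : TAIL c
  cv : CV c
  smv : SMV c
  lwf : LWF c
  kp : KP c
  tri : TRI c

/-! ## the proof -/

/-- row A1: the part above the plane, and the order `ϑ T` -/
structure A1 : Prop where
  above : ∀ w W κ f ρ θ1 θ a0 u0 X, Dat c w W κ f ρ θ1 θ a0 u0 → RX c a0 u0 X → ∀ η > 0,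
    ∀ᶠ δ in 𝓝[>] (0 : ℝ), ∀ᶠ L in atTop,
      ‖inner ℂ (w0L w (pairF sq2 κ f ρ (abv θ1 θ δ) δ L)) (X c.Om) -
        (∫ t, ρ t : ℝ) * c.AbK f (abv θ1 θ δ) (X c.Om)‖ ≤ η
  order : ∀ w W κ f ρ θ1 θ a0 u0 X (φ : ℝ → ℝ) (δ : ℝ), Dat c w W κ f ρ θ1 θ a0 u0 →
    RX c a0 u0 X → Tst φ → tsupport φ ⊆ Set.Ioi (-u0) → 0 < δ →
    Tendsto (fun L => inner ℂ (w1L W (pairF sq2 κ f ρ φ δ L)) (X c.Om)) atTop (𝓝 0)

/-- row A3: the far tubes -/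
def A3 : Prop := ∀ w W κ f ρ θ1 θ a0 u0 X (g : P3 → ℝ) (c0 : ℝ), Dat c w W κ f ρ θ1 θ a0 u0 →
  RX c a0 u0 X → Tst g → 0 < c0 → tsupport g ⊆ {y | y.1 ≤ -c0} →
  ∃ C σ A0 δ0 : ℝ, 0 < σ ∧ 0 < δ0 ∧ ∀ δ A, 0 < δ → δ ≤ δ0 → A0 ≤ A →
    ‖inner ℂ ((w0L w - w1L W) (pairF sq2 g f ρ (thn θ1 θ δ) δ A)) (X c.Om)‖ ≤ C * A ^ (-σ)

/-- row AA: the statement for good operators -/
def AA : Prop := ∀ w W κ f ρ θ1 θ a0 u0 X, Dat c w W κ f ρ θ1 θ a0 u0 → RX c a0 u0 X → ∀ η > 0,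
  ∀ᶠ δ in 𝓝[>] (0 : ℝ), ∀ᶠ L in atTop, ‖Err c w κ f ρ θ1 θ δ L (X c.Om)‖ ≤ η

/-- row UB: uniform bounds -/
def UB : Prop := ∀ w W κ f ρ θ1 θ a0 u0, Dat c w W κ f ρ θ1 θ a0 u0 →
  ∃ (k m : ℕ) (C δ0 : ℝ), 0 ≤ C ∧ 0 < δ0 ∧ ∀ (a : ℝ) ψ wR wL (Λ δ L : ℝ), 1 ≤ a →
    inner ℂ c.Om ψ = 0 → Pk c k ψ Λ → DK c ψ → ‖gen c.SK ψ‖ ≤ Λ → Tri c f θ1 a u0 ψ wR wL →
    (∀ j, Lw c (wR j) Λ ∧ Lw c (wL j) Λ) → 0 < δ → δ ≤ δ0 → 1 ≤ L →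
    ‖Err c w κ f ρ θ1 θ δ L ψ‖ ≤ C * a ^ m * Λ

/-- row UFT: uniform bounds for fields below the plane -/
def UFT : Prop := ∀ w W κ f ρ θ1 θ a0 u0 (b1 : ℝ), Dat c w W κ f ρ θ1 θ a0 u0 →
  ∃ (m : ℕ) (C δ0 : ℝ), 0 ≤ C ∧ 0 < δ0 ∧ ∀ (a : ℝ) (G : Ix → Ix → Sch) (δ L : ℝ), 1 ≤ a →
    InF {z | b1 ≤ be z ∧ be z ≤ -u0 ∧ -a ≤ al z} (evF G) → 0 < δ → δ ≤ δ0 → 1 ≤ L →
    DK c (c.Tv (evF G)) ∧ ‖Err c w κ f ρ θ1 θ δ L (c.Tv (evF G))‖ ≤ C * a ^ m * snF m G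

/-- the same for the leg -/
def UF : Prop := ∀ w W κ f ρ θ1 θ a0 u0 (b1 : ℝ), Dat c w W κ f ρ θ1 θ a0 u0 →
  ∃ (m : ℕ) (C δ0 : ℝ), 0 ≤ C ∧ 0 < δ0 ∧ ∀ (a : ℝ) (g : Sch) (δ L : ℝ), 1 ≤ a →
    In {z | b1 ≤ be z ∧ be z ≤ -u0 ∧ -a ≤ al z} (ev g) → 0 < δ → δ ≤ δ0 → 1 ≤ L →
    DK c (c.Th (ev g)) ∧ ‖Err c w κ f ρ θ1 θ δ L (c.Th (ev g))‖ ≤ C * a ^ m * sn m g

/-- row RF: the statement for fields to the right -/
def RF : Prop := ∀ w W κ f ρ θ1 θ a0 u0 (g : Fn), Dat c w W κ f ρ θ1 θ a0 u0 →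
  In {z | be z < -u0 ∧ a0 + 2 < al z} g → ∀ η > 0,
  ∀ᶠ δ in 𝓝[>] (0 : ℝ), ∀ᶠ L in atTop, ‖Err c w κ f ρ θ1 θ δ L (c.Th g)‖ ≤ η

/-! ## the statements for the leg, from the statements for tensors -/

theorem Lw.mono {c : Ctx D} {w : Completion D} {Λ Λ' : ℝ} (h : Lw c w Λ) (e : Λ ≤ Λ') : Lw c w Λ' :=
  ⟨h.dg, h.dp, h.dgp, h.n0.trans e, h.ng.trans e, h.np.trans e, h.ngp.trans e⟩

theorem Pk.mono {c : Ctx D} {k : ℕ} {w : Completion D} {Λ Λ' : ℝ} (h : Pk c k w Λ) (e : Λ ≤ Λ') :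
    Pk c k w Λ' := ⟨h.1, fun j hj => (h.2 j hj).trans e⟩

theorem LWF.one {c : Ctx D} (h : LWF c) :
    ∃ (m : ℕ) (C : ℝ), 0 ≤ C ∧ ∀ g : Sch, Lw c (c.Th (ev g)) (C * sn m g) := by
  obtain ⟨m, C, C0, h⟩ := h.oneT
  obtain ⟨m', C', C0', h'⟩ := Ev.snF_adS va m
  refine ⟨m', C * C', by positivity, fun g => ?_⟩
  rw [Ev.Th_def, ← Ev.evF_adS, mul_assoc]
  exact (h _).mono (mul_le_mul_of_nonneg_left (h' g) C0)

theorem LWF.pk {c : Ctx D} (h : LWF c) (k : ℕ) :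
    ∃ (m : ℕ) (C : ℝ), 0 ≤ C ∧ ∀ g : Sch, Pk c k (c.Th (ev g)) (C * sn m g) := by
  obtain ⟨m, C, C0, h⟩ := h.pkT k
  obtain ⟨m', C', C0', h'⟩ := Ev.snF_adS va m
  refine ⟨m', C * C', by positivity, fun g => ?_⟩
  rw [Ev.Th_def, ← Ev.evF_adS, mul_assoc]
  exact (h _).mono (mul_le_mul_of_nonneg_left (h' g) C0)

/-- one leg and one tensor, in both orders -/
theorem LWF.mix {c : Ctx D} (h : LWF c) : ∃ (m : ℕ) (C : ℝ), 0 ≤ C ∧ ∀ (f : Sch) G,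
    Lw c ((c.Thf (ev f) (c.Tf (evF G) c.Q.vac) : D) : Completion D) (C * sn m f * snF m G) ∧
    Lw c ((c.Tf (evF G) (c.Thf (ev f) c.Q.vac) : D) : Completion D) (C * sn m f * snF m G) := by
  obtain ⟨m, C, C0, h⟩ := h.twoT
  obtain ⟨m', C', C0', h'⟩ := Ev.snF_adS va m
  refine ⟨max m m', C * C', by positivity, fun f G => ?_⟩
  have k : C * snF m (adS va f) * snF m G ≤ C * C' * sn (max m m') f * snF (max m m') G := by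
    rw [mul_assoc C C']
    exact mul_le_mul (mul_le_mul_of_nonneg_left ((h' f).trans (mul_le_mul_of_nonneg_left
      (Lie.sn_mono (le_max_right _ _) f) C0')) C0) (Ev.snF_mono (le_max_left _ _) G)
      (Ev.snF_nonneg _ _) (mul_nonneg C0 (mul_nonneg C0' (Lie.sn_nonneg _ _)))
  rw [Ev.Thf_def, ← Ev.evF_adS]
  exact ⟨(h _ _).mono k, (h _ _).mono ((mul_right_comm _ _ _).le.trans k)⟩

theorem LWF.two {c : Ctx D} (h : LWF c) : ∃ (m : ℕ) (C : ℝ), 0 ≤ C ∧ ∀ f g : Sch,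
    Lw c ((c.Thf (ev f) (c.Thf (ev g) c.Q.vac) : D) : Completion D) (C * sn m f * sn m g) := by
  obtain ⟨m, C, C0, h⟩ := h.mix
  obtain ⟨m', C', C0', h'⟩ := Ev.snF_adS va m
  refine ⟨max m m', C * C', by positivity, fun f g => ?_⟩
  rw [Ev.Thf_def c (ev g), ← Ev.evF_adS]
  refine (h f _).1.mono ?_
  rw [mul_right_comm C C', mul_assoc _ C']
  exact mul_le_mul (mul_le_mul_of_nonneg_left (Lie.sn_mono (le_max_left _ _) f) C0)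
    ((h' g).trans (mul_le_mul_of_nonneg_left (Lie.sn_mono (le_max_right _ _) g) C0'))
    (Ev.snF_nonneg _ _) (mul_nonneg C0 (Lie.sn_nonneg _ _))

theorem TRI.com {c : Ctx D} (t : TRI c) (a u0 : ℝ) (g h : Fn) (v : D)
    (hh : In {z | al z < a ∧ -u0 < be z} h) (hg : In {z | be z ≤ -u0 ∧ a ≤ al z} g) :
    c.Thf g (c.Thf h v) = c.Thf h (c.Thf g v) ∧ c.Thf g (Taa c h v) = Taa c h (c.Thf g v) :=
  ⟨t.comT a u0 _ _ v (Ev.in_ad va hh) (Ev.in_ad va hg),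
    t.comT a u0 _ _ v (Ap.in_hk va va hh) (Ev.in_ad va hg)⟩

theorem TRI.fld {c : Ctx D} (t : TRI c) (f : P3 → ℝ) (θ1 : ℝ → ℝ) (a u0 : ℝ) (g : Fn) (hf : Tst f)
    (h1 : Tst θ1) (hg : In {z | be z ≤ -u0 ∧ -a ≤ al z} g) : Tri c f θ1 a u0 (c.Th g)
      (fun j => (c.Thf (pr (wt (pol j) f) θ1) (c.Thf g c.Q.vac) : D))
      (fun j => (c.Thf (bar g) (c.Thf (pr (wt (pol j) f) θ1) c.Q.vac) : D)) := by
  have := t.fldT f θ1 a u0 _ hf h1 (Ev.in_ad va hg)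
  rwa [Ev.barF_ad] at this

theorem UFT.uf {c : Ctx D} (h : UFT c) : UF c := by
  intro w W κ f ρ θ1 θ a0 u0 b1 d
  obtain ⟨m, C, δ0, C0, d0, h⟩ := h w W κ f ρ θ1 θ a0 u0 b1 d
  obtain ⟨m', C', C0', h'⟩ := Ev.snF_adS va m
  refine ⟨max m m', C * C', δ0, by positivity, d0, fun a g δ L ha hg k1 k2 k3 => ?_⟩
  have := h a (adS va g) δ L ha (by rw [Ev.evF_adS]; exact Ev.in_ad va hg) k1 k2 k3
  rw [Ev.evF_adS] at this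
  refine ⟨this.1, this.2.trans ?_⟩
  rw [mul_right_comm C C', mul_assoc _ C']
  exact mul_le_mul (mul_le_mul_of_nonneg_left (pow_le_pow_right₀ ha (le_max_left _ _)) C0)
    ((h' g).trans (mul_le_mul_of_nonneg_left (Lie.sn_mono (le_max_right _ _) g) C0'))
    (Ev.snF_nonneg _ _) (by positivity)

/-- the sub-rows with their dependencies -/
structure Rows : Prop where
  vit : VIT
  prim : PRIM
  ann : ANN
  norm : T3 c → NORM c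
  tail : T3 c → PRIM → NORM c → TAIL c
  cv : T3 c → ANN → CV c
  smv : T3 c → SMV c
  lwf : T3 c → LWF c
  kp : T3 c → SMV c → KP c
  tri : T3 c → TRI c
  flow : T3 c → ANN → FLOW c
  near : T3 c → PRIM → ANN → NEAR c
  dt : T3 c → DT c
  k0t : T3 c → K0T c
  sch : T3 c → SCH c
  ab : T3 c → NORM c → SCH c → DT c → K0T c → AB c
  a1 : Tools c → BP0 c → A1 c
  a3 : Tools c → A3 c
  aa : Tools c → FLOW c → A1 c → A3 c → AA c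
  ub : Tools c → NEAR c → AB c → UB c
  uf : Tools c → UB c → UFT c
  rf : Tools c → AA c → UB c → UFT c → RF c
  fin : Tools c → VIT → UF c → RF c → CONK0 c
  sh : Tools c → CONK0 c → CONK c

theorem Rows.conk {c : Ctx D} (r : CK.Rows c) (t : T3 c) (bp : BP0 c) : CONK c := by
  have norm := r.norm t
  have smv := r.smv t
  have tl : Tools c := ⟨t, r.prim, r.ann, norm, r.tail t r.prim norm, r.cv t r.ann, smv, r.lwf t,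
    r.kp t smv, r.tri t⟩
  have ub := r.ub tl (r.near t r.prim r.ann) (r.ab t norm (r.sch t) (r.dt t) (r.k0t t))
  have uf := r.uf tl ub
  exact r.sh tl (r.fin tl r.vit uf.uf
    (r.rf tl (r.aa tl (r.flow t r.ann) (r.a1 tl bp) (r.a3 tl)) ub uf))

end

end Vale.Agent.P352X.ZZ.CK
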