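import Vale.Agent.P352X.R.CONK.Tri
import Vale.Agent.P352Z.R.CONK.Spec
import Vale.Agent.P352Z.R.FAR
import Vale.Agent.P352Z.Api1C

/-!
# P352Z, block CONK, row TRI
-/

set_option linter.all false

open MeasureTheory Filter Topology Set
open scoped ContDiff SchwartzMap

namespace Vale.Agent.P352X.ZZ.CK

export Vale.Agent.P352X.CK (bar_bar' test_bar tsupport_bar in_bar in_mono in_dc smooth_pol
  smooth_qol tst_wt tsupport_wt in_pr comm_sum sep_of in_hk bar_hk)

open Vale.Agent.P352 Vale.Agent.P352.GF Vale.Agent.P352.BW Vale.Agent.P352.H246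
open Vale.Agent.P352.H496 Vale.Agent.P352.H755 Vale.Agent.P352X.Ap
open UniformSpace (Completion)

variable {D : Type*} [NormedAddCommGroup D] [InnerProductSpace ℂ D] {c : Ctx D}

/-- the fields are linear maps -/
theorem T_lin (m n : Ix) {f : Fn} (hf : IsTest f) : IsLinearMap ℂ (c.T m n f) := by
  have e : ∀ w v, inner ℂ w (c.T m n f v) = inner ℂ (c.T m n (bar f) w) v := fun w v => by
    rw [c.hT.herm m n _ _ _ (test_bar hf), bar_bar']
  exact ⟨fun u v => ext_inner_left ℂ fun w => by simp only [e, inner_add_right],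
    fun a v => ext_inner_left ℂ fun w => by simp only [e, inner_smul_right]⟩

theorem Taa_eq {h : Fn} (hh : IsTest h) (v : D) : Taa c h v = ∑ k : Ix × Ix,
    ((eta k.1 * va k.1 * (eta k.2 * va k.2) : ℝ) : ℂ) • c.T k.1 k.2 h v := by
  rw [Fintype.sum_prod_type, Taa, Ctx.Tf]
  exact Finset.sum_congr rfl fun m _ => Finset.sum_congr rfl fun n _ => Far.T_smul c m n _ hh v

theorem taa_herm {h : Fn} (hh : IsTest h) (u v : D) :
    inner ℂ (Taa c h u) v = inner ℂ u (Taa c (bar h) v) := by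
  simp only [Taa_eq hh, Taa_eq (test_bar hh), sum_inner, inner_sum, inner_smul_left,
    inner_smul_right, Complex.conj_ofReal, c.hT.herm _ _ _ _ _ hh]

theorem thf_herm {h : Fn} (hh : IsTest h) (u v : D) :
    inner ℂ (c.Thf h u) v = inner ℂ u (c.Thf (bar h) v) := Ev.Thf_adj c hh u v

/-- locality -/
theorem com_sep {g h : Fn} (hg : IsTest g) (hh : IsTest h) (s : Sep g h) (v : D) :
    c.Thf g (c.Thf h v) = c.Thf h (c.Thf g v) ∧ c.Thf g (Taa c h v) = Taa c h (c.Thf g v) :=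
  ⟨Ev.Tf_comm c (Ev.tt_ad _ hg) (Ev.tt_ad _ hh) (fun _ _ _ _ =>
      Ev.sep_mono s (Ev.tsupport_ad _ _ _ _) (Ev.tsupport_ad _ _ _ _)) v,
    Ev.Tf_comm c (Ev.tt_ad _ hg) (Ev.tt_hk _ _ hh) (fun _ _ _ _ =>
      Ev.sep_mono s (Ev.tsupport_ad _ _ _ _) tsupport_mul_subset_right) v⟩

theorem comT {a u0 : ℝ} {G H : Ix → Ix → Fn} (v : D) (hh : Ev.InF {z | al z < a ∧ -u0 < be z} H)
    (hg : Ev.InF {z | be z ≤ -u0 ∧ a ≤ al z} G) : c.Tf G (c.Tf H v) = c.Tf H (c.Tf G v) :=
  Ev.Tf_comm c hg.tt hh.tt (fun _ _ _ _ => sep_of (hh _ _).2.2 (hg _ _).2.2) v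

/-- weak commutation with operators in the opposite wedge -/
theorem op_wdg (t : T1 c) {a u0 : ℝ} {O : Set V} {X} {h : Fn} (u v : D)
    (hO : O ⊆ {z | be z < -u0 ∧ a < al z}) (hX : X ∈ c.N O)
    (hh : In {z | al z < a ∧ -u0 < be z} h) :
    inner ℂ ((c.Thf (bar h) u : D) : Completion D) (X (v : Completion D)) =
      inner ℂ (u : Completion D) (X ((c.Thf h v : D) : Completion D)) ∧
    inner ℂ ((Taa c (bar h) u : D) : Completion D) (X (v : Completion D)) =
      inner ℂ (u : Completion D) (X ((Taa c h v : D) : Completion D)) := by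
  have hX' : X ∈ (c.N {z | al z < a ∧ -u0 < be z}).commutant :=
    t.jc.loc (y := pt a (-u0) 0) null_vb null_va (by rw [md_vb]; simp)
      (fun z hz => ⟨by rw [md_vb]; simpa using hz.1, by rw [md_va]; simp; linarith [hz.2]⟩)
      (fun z hz => ⟨by rw [md_va]; simp; linarith [(hO hz).1], by rw [md_vb]; simpa using (hO hz).2⟩)
      X hX
  refine ⟨(t.grp.affh _ h hh).2 X hX' v u, ?_⟩
  have := (t.grp.afft _ _ (in_hk hh va va)).2 X hX' v u
  rwa [bar_hk] at this

theorem tri_row (c : Ctx D) (t : T3 c) : TRI c where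
  herm h u v hh := ⟨taa_herm hh u v, thf_herm hh u v⟩
  comT a u0 G H v hh hg := comT v hh hg
  op a u0 y r X h u v hO hX hh := op_wdg t.toT2.toT1 u v hO hX hh
  fldT f θ1 a u0 G hf hθ hg := by
    have k := fun j => Far.isTest_dc (Far.dc_pr (tst_wt (smooth_pol j) hf) hθ)
    refine ⟨fun j h _ => ?_, fun j h hh => ?_⟩
    · rw [Ctx.Tv, Completion.inner_coe, Completion.inner_coe, thf_herm (k j), Far.bar_pr]
    · rw [Ctx.Tv, Completion.inner_coe, Completion.inner_coe, taa_herm hh.1,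
        Ev.Tf_adj c hg.tt.bar, Ev.barF_barF, Taa, Taa, comT _ (in_hk (in_bar hh) va va) hg]
  opt f θ1 a a0 u0 y r X hf hθ sf sθ ha hO hX := by
    have k : ∀ j, In {z | al z < a0 ∧ -u0 < be z} (pr (wt (pol j) f) θ1) := fun j =>
      in_pr (tst_wt (smooth_pol j) hf) hθ ((tsupport_wt _ _).trans sf) sθ
    refine ⟨fun j h _ => ?_, fun j h hh => ?_⟩
    · have := (op_wdg t.toT2.toT1 (Taa c h c.Q.vac) c.Q.vac hO hX (k j)).1
      rwa [Far.bar_pr] at this
    · have := (op_wdg t.toT2.toT1 (c.Thf (pr (wt (pol j) f) θ1) c.Q.vac) c.Q.vac hO hX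
        (in_mono (in_bar hh) fun z hz => ⟨hz.1.trans_le ha, hz.2⟩)).2
      rw [bar_bar'] at this
      rw [star_inner]
      exact this

end Vale.Agent.P352X.ZZ.CK
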