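import Vale.Agent.P352X.R.CONK.LWF
import Vale.Agent.P352Z.R.CONK.Spec
import Vale.Agent.P352Z.R.GEN
import Vale.Agent.P352Z.R.FAR
import Vale.Agent.P352Z.Api1C

/-!
# P352Z, block CONK, row LWF: bounds for the generators on vectors created by fields (helper76)
-/

set_option linter.all false

open MeasureTheory Filter Topology
open scoped SchwartzMap ComplexConjugate ENNReal ContDiff

namespace Vale.Agent.P352X.ZZ.CK

open Vale.Agent.P352 Vale.Agent.P352.GF Vale.Agent.P352.BW Vale.Agent.P352.H246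
open Vale.Agent.P352.H496 Vale.Agent.P352.H755 Vale.Agent.P352.H15
open H148 (Od snS)
open Ev (evF snF)
open UniformSpace (Completion)
open Complex (I)

noncomputable section

namespace Lwf

export Vale.Agent.P352X.CK.Lwf (od_comp snS_le bd1 bd2 Fm adj_id adj_iter thin)

variable {D : Type*} [NormedAddCommGroup D] [InnerProductSpace ℂ D]

theorem od_th (c : Ctx D) : Od c.Thf c.Thf where
  lin f g a v hf hg := Ev.Thf_lin c a hf hg v
  cont v := (Ev.thL c v).continuous.congr (Ev.thL_apply c v)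
  adj f v w hf := Ev.Thf_adj c hf v w

theorem sum_bd {κ ι : Type} [Fintype κ] {a : κ → ι → D} {s : ℕ → ι → ℝ} (nn : ∀ m i, 0 ≤ s m i)
    (mono : ∀ m n i, m ≤ n → s m i ≤ s n i)
    (h : ∀ j, ∃ (m : ℕ) (C : ℝ), 0 ≤ C ∧ ∀ i, ‖a j i‖ ≤ C * s m i) :
    ∃ (m : ℕ) (C : ℝ), 0 ≤ C ∧ ∀ i, ‖∑ j, a j i‖ ≤ C * s m i := by
  choose m C C0 hC using h
  refine ⟨Finset.univ.sup m, ∑ j, C j, Finset.sum_nonneg fun j _ => C0 j, fun i => ?_⟩
  rw [Finset.sum_mul]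
  exact (norm_sum_le _ _).trans (Finset.sum_le_sum fun j _ => (hC j i).trans
    (mul_le_mul_of_nonneg_left (mono _ _ _ (Finset.le_sup (Finset.mem_univ j))) (C0 j)))

theorem fm1 (c : Ctx D) : Fm (fun G => c.Tf (evF G) c.Q.vac) snF := by
  refine ⟨Ev.snF_nonneg, fun _ _ G h => Ev.snF_mono h G, fun R R' h => ?_⟩
  have := sum_bd (a := fun (j : Ix × Ix) G => R (c.T j.1 j.2 (evF G j.1 j.2) c.Q.vac))
    Ev.snF_nonneg (fun _ _ G h => Ev.snF_mono h G) fun j => by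
      obtain ⟨m, C, C0, hC⟩ := bd1 (od_comp h (Gen.od c j.1 j.2)) c.Q.vac
      exact ⟨m, C, C0, fun G => (hC _).trans
        (mul_le_mul_of_nonneg_left (Ev.sn_le_snF m G _ _) C0)⟩
  simpa only [Ctx.Tf, Ev.adj_sum' h, Fintype.sum_prod_type] using this

theorem fm2 (c : Ctx D) : Fm (fun q : (Ix → Ix → Sch) × (Ix → Ix → Sch) =>
    c.Tf (evF q.1) (c.Tf (evF q.2) c.Q.vac)) fun m q => snF m q.1 * snF m q.2 := by
  have nn : ∀ m (q : (Ix → Ix → Sch) × (Ix → Ix → Sch)), 0 ≤ snF m q.1 * snF m q.2 :=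
    fun m q => mul_nonneg (Ev.snF_nonneg _ _) (Ev.snF_nonneg _ _)
  have mo : ∀ m n (q : (Ix → Ix → Sch) × (Ix → Ix → Sch)), m ≤ n →
      snF m q.1 * snF m q.2 ≤ snF n q.1 * snF n q.2 := fun _ _ q h =>
    mul_le_mul (Ev.snF_mono h _) (Ev.snF_mono h _) (Ev.snF_nonneg _ _) (Ev.snF_nonneg _ _)
  refine ⟨nn, mo, fun R R' h => ?_⟩
  have := sum_bd (a := fun (j : Ix × Ix × Ix × Ix) (q : (Ix → Ix → Sch) × (Ix → Ix → Sch)) =>
    R (c.T j.1 j.2.1 (evF q.1 j.1 j.2.1) (c.T j.2.2.1 j.2.2.2 (evF q.2 j.2.2.1 j.2.2.2) c.Q.vac)))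
    nn mo fun j => by
      obtain ⟨m, C, C0, hC⟩ :=
        bd2 (od_comp h (Gen.od c j.1 j.2.1)) (Gen.od c j.2.2.1 j.2.2.2) c.Q.vac
      exact ⟨m, C, C0, fun q => (hC (_, _)).trans (mul_le_mul_of_nonneg_left (mul_le_mul
        (Ev.sn_le_snF m _ _ _) (Ev.sn_le_snF m _ _ _) (Lie.sn_nonneg _ _) (Ev.snF_nonneg _ _)) C0)⟩
  have e : ∀ F m n (v : Ix → D), c.T m n (evF F m n) (∑ i, v i) = ∑ i, c.T m n (evF F m n) (v i) :=
    fun F m n => fsum (Ev.fld c m n) (Ev.tt_evF F m n) _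
  simpa only [Ctx.Tf, Ev.adj_sum' h, Fintype.sum_prod_type, e] using this

variable {c : Ctx D}

/-- the generator leaves the domain invariant and is symmetric there -/
theorem ex_gen {W X} (K : Gen.Fl c W X) (g : GRP c) (u : UG W) :
    ∃ A : D → D, Adj A A ∧ ∀ v : D, Gn W (v : Completion D) (A v : D) := by
  have h : ∀ v : D, Gn W (v : Completion D) (c.A X v : D) := fun v => by
    have := K.dom g v
    rwa [Completion.coe_smul] at this
  refine ⟨_, fun v w => ?_, h⟩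
  simpa only [Completion.inner_coe] using (u.symm (h v) (h w)).symm

theorem Fm.lw {ι : Type} {v : ι → D} {s : ℕ → ι → ℝ} (h : Fm v s) (g : GRP c) :
    ∃ (m : ℕ) (C : ℝ), 0 ≤ C ∧ ∀ i, Lw c (v i : D) (C * s m i) := by
  obtain ⟨P, aP, hP⟩ := ex_gen (Gen.fl_ut c vb) g g.ugPb
  obtain ⟨G, aG, hG⟩ := ex_gen (Gen.fl_gb g) g g.ugGb
  replace hP : ∀ v : D, Gn (Pb c.Q) (v : Completion D) (P v : D) := hP
  obtain ⟨m, C, C0, hC⟩ := h.fin ![id, G, P, fun v => G (P v)] fun j => by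
    fin_cases j
    exacts [⟨_, adj_id⟩, ⟨_, aG⟩, ⟨_, aP⟩, ⟨_, aG.comp aP⟩]
  refine ⟨m, C, C0, fun i => ⟨(hG _).dm, (hP _).dm, ?_, ?_, ?_, ?_, ?_⟩⟩ <;>
    simp only [(hP _).gen_eq, (hG _).gen_eq, Completion.norm_coe]
  exacts [(hG _).dm, hC 0 i, hC 1 i, hC 2 i, hC 3 i]

theorem Fm.pk {ι : Type} {v : ι → D} {s : ℕ → ι → ℝ} (h : Fm v s) (g : GRP c) (k : ℕ) :
    ∃ (m : ℕ) (C : ℝ), 0 ≤ C ∧ ∀ i, Pk c k (v i : D) (C * s m i) := by
  obtain ⟨P, aP, hP⟩ := ex_gen (Gen.fl_ut c vb) g g.ugPb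
  replace hP : ∀ v : D, Gn (Pb c.Q) (v : Completion D) (P v : D) := hP
  have e : ∀ j (v : D), (gen (Pb c.Q))^[j] v = (P^[j] v : D) := fun j => by
    induction j with
    | zero => exact fun _ => rfl
    | succ j ih => exact fun v => by rw [Function.iterate_succ_apply, (hP _).gen_eq, ih]; rfl
  obtain ⟨m, C, C0, hC⟩ := h.fin (fun j : Fin (k + 1) => P^[j]) fun j => adj_iter aP j
  refine ⟨m, C, C0, fun i => ⟨fun j _ => e j _ ▸ (hP _).dm, fun j hj => ?_⟩⟩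
  rw [e, Completion.norm_coe]
  exact hC ⟨j, Nat.lt_succ_of_le hj⟩ i

end Lwf

open Lwf

theorem lwf_row {D : Type*} [NormedAddCommGroup D] [InnerProductSpace ℂ D] (c : Ctx D)
    (t : T3 c) : LWF c where
  oneT := Fm.lw (fm1 c) t.grp
  pkT := Fm.pk (fm1 c) t.grp
  twoT := let ⟨m, C, C0, h⟩ := Fm.lw (fm2 c) t.grp
    ⟨m, C, C0, fun f g => mul_assoc C _ _ ▸ h (f, g)⟩
  thin := thin

end

end Vale.Agent.P352X.ZZ.CK
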