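import Vale.Agent.P352X.R.CONK.Uf
import Vale.Agent.P352Z.R.CONK.Tri

/-!
# P352Z, row CK.uf: uniform bounds for fields below the plane
-/

set_option linter.all false

open MeasureTheory Filter Topology
open scoped SchwartzMap ComplexConjugate ENNReal ContDiff

namespace Vale.Agent.P352X.ZZ.CK

open Vale.Agent.P352 Vale.Agent.P352.GF Vale.Agent.P352.BW Vale.Agent.P352.H246
open Vale.Agent.P352.H496 Vale.Agent.P352.H755 Vale.Agent.P352.H15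
open Ev (evF barF snF InF)
open UniformSpace (Completion)
open Complex (I)

noncomputable section

namespace Uf

export Vale.Agent.P352X.CK.Uf (sn_bar)

variable {D : Type*} [NormedAddCommGroup D] [InnerProductSpace ℂ D] {c : Ctx D}

lemma lw_mono {w : Completion D} {Λ Λ' : ℝ} (h : Lw c w Λ) (e : Λ ≤ Λ') : Lw c w Λ' :=
  ⟨h.dg, h.dp, h.dgp, h.n0.trans e, h.ng.trans e, h.np.trans e, h.ngp.trans e⟩

lemma pk_mono {k : ℕ} {w : Completion D} {Λ Λ' : ℝ} (h : Pk c k w Λ) (e : Λ ≤ Λ') :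
    Pk c k w Λ' := ⟨h.1, fun j hj => (h.2 j hj).trans e⟩

lemma perp_Th (g : GRP c) {f : Fn} (hf : IsTest f) : inner ℂ c.Om (c.Th f) = 0 := Ev.perp_Th g hf

lemma snF_bar (m : ℕ) (G : Ix → Ix → Sch) :
    ∃ G' : Ix → Ix → Sch, evF G' = barF (evF G) ∧ snF m G' ≤ snF m G := by
  choose G' h1 h2 using fun i j => sn_bar m (G i j)
  exact ⟨G', funext fun i => funext fun j => h1 i j,
    Finset.sum_le_sum fun i _ => Finset.sum_le_sum fun j _ => h2 i j⟩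

lemma Tv_sum (G : Ix → Ix → Sch) : c.Tv (evF G) =
    ∑ j : Ix × Ix, c.Tv (hk (bas j.1 (eta j.1)) (bas j.2 (eta j.2)) (ev (G j.1 j.2))) := by
  rw [Ev.Tv_eq, Fintype.sum_prod_type]
  exact Finset.sum_congr rfl fun m _ => Finset.sum_congr rfl fun n _ =>
    congrArg _ (Ev.T_eq_hk c m n ⟨_, rfl⟩ _)

/-- tensors on slabs are in the domain of `K` -/
lemma slab (kd : KD c) {b1 b2 : ℝ} (h : b2 < 0 ∨ 0 < b1) :
    ∃ (m : ℕ) (C : ℝ), 0 ≤ C ∧ ∀ G : Ix → Ix → Sch,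
      (∀ i j, tsupport (G i j) ⊆ {z | b1 ≤ be z ∧ be z ≤ b2}) →
      Dm c.SK (c.Tv (evF G)) ∧ ‖gen c.SK (c.Tv (evF G))‖ ≤ C * snF m G := by
  obtain ⟨m, C, hC⟩ := kd.slab b1 b2 h
  refine ⟨m, ∑ j : Ix × Ix, |C| * ‖bas j.1 (eta j.1)‖ * ‖bas j.2 (eta j.2)‖, by positivity,
    fun G hG => ?_⟩
  have h1 := Gn.sum Finset.univ fun (j : Ix × Ix) _ =>
    (hC (bas j.1 (eta j.1)) (bas j.2 (eta j.2)) _ (hG j.1 j.2)).1.gn
  rw [← Tv_sum] at h1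
  refine ⟨h1.dm, ?_⟩
  rw [h1.gen_eq, Finset.sum_mul]
  refine (norm_sum_le _ _).trans (Finset.sum_le_sum fun j _ =>
    (hC _ _ _ (hG j.1 j.2)).2.2.1.trans ?_)
  have h0 := Lie.sn_nonneg m (G j.1 j.2)
  gcongr
  exacts [le_abs_self _, Ev.sn_le_snF m G _ _]

end Uf

open Uf

variable {D : Type*} [NormedAddCommGroup D] [InnerProductSpace ℂ D]

/-- **row CK.uf** -/
theorem uf_row (c : Ctx D) (t : Tools c) (ub : UB c) : UFT c := by
  intro w W κ f ρ θ1 θ a0 u0 b1 d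
  obtain ⟨k, m, C, δ0, hC, hδ0, hub⟩ := ub w W κ f ρ θ1 θ a0 u0 d
  obtain ⟨m1, C1, hC1, h1⟩ := t.lwf.pkT k
  obtain ⟨m2, C2, hC2, h2⟩ := t.lwf.mix
  obtain ⟨m3, C3, hC3, h3⟩ := slab t.kd (b1 := b1) (b2 := -u0) (Or.inl (by linarith [d.hu]))
  have hF : ∀ j, IsTest (pr (wt (pol j) f) θ1) := fun j =>
    Far.isTest_dc (Far.dc_pr (tst_wt (smooth_pol j) d.tf) d.t1)
  choose F hF using hF
  obtain ⟨S, hS⟩ : ∃ S : ℝ, S = ∑ j, sn m2 (F j) := ⟨_, rfl⟩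
  have hS1 : ∀ j, sn m2 (F j) ≤ S := fun j => hS ▸ Finset.single_le_sum
    (f := fun j => sn m2 (F j)) (fun j _ => Lie.sn_nonneg _ _) (Finset.mem_univ j)
  have hS0 : 0 ≤ S := (Lie.sn_nonneg _ _).trans (hS1 0)
  refine ⟨m + m1 + m2 + m3, C * (C1 + C2 * S + C3), δ0, by positivity, hδ0,
    fun a g δ L ha hg hδ hδ1 hL => ?_⟩
  obtain ⟨N, hN⟩ : ∃ N : ℝ, N = snF (m + m1 + m2 + m3) g := ⟨_, rfl⟩
  have n1 : snF m1 g ≤ N := hN ▸ Ev.snF_mono (by omega) g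
  have n2 : snF m2 g ≤ N := hN ▸ Ev.snF_mono (by omega) g
  have n3 : snF m3 g ≤ N := hN ▸ Ev.snF_mono (by omega) g
  have n0 : 0 ≤ N := (Ev.snF_nonneg _ _).trans n1
  have p1 : 0 ≤ C1 * N := by positivity
  have p2 : 0 ≤ C2 * S * N := by positivity
  have p3 : 0 ≤ C3 * N := by positivity
  obtain ⟨k1, k2⟩ := h3 g fun i j z hz => ⟨((hg i j).2.2 hz).1, ((hg i j).2.2 hz).2.1⟩
  have hdk : DK c (c.Tv (evF g)) := by
    refine ⟨k1, fun i => ?_, ?_⟩ <;> rw [Tv_sum]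
    exacts [(Gn.sum Finset.univ fun j _ => t.gen.mi i _ _ _ ⟨_, rfl⟩).dm,
      (Gn.sum Finset.univ fun j _ => t.gen.ut va _ _ _ ⟨_, rfl⟩).dm]
  refine ⟨hdk, ?_⟩
  obtain ⟨g', hg', hs'⟩ := snF_bar m2 g
  have k3 := hub a _ _ _ ((C1 + C2 * S + C3) * N) δ L ha (Ev.perp_TF t.grp hg.tt)
    (pk_mono (h1 g) (by nlinarith [mul_le_mul_of_nonneg_left n1 hC1])) hdk
    (k2.trans (by nlinarith [mul_le_mul_of_nonneg_left n3 hC3]))
    (t.tri.fldT f θ1 a u0 (evF g) d.tf d.t1 (hg.mono fun z hz => hz.2)) (fun j => by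
      rw [← hF j, ← hg']
      have e1 : C2 * sn m2 (F j) * snF m2 g ≤ C2 * S * N := by
        have := Ev.snF_nonneg m2 g
        gcongr
        exact hS1 j
      have e2 : C2 * sn m2 (F j) * snF m2 g' ≤ C2 * S * N := by
        have := Ev.snF_nonneg m2 g'
        gcongr
        exacts [hS1 j, hs'.trans n2]
      exact ⟨lw_mono (h2 (F j) g).1 (by linarith), lw_mono (h2 (F j) g').2 (by linarith)⟩)
    hδ hδ1 hL
  rw [← hN]
  refine k3.trans ?_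
  have e3 : a ^ m ≤ a ^ (m + m1 + m2 + m3) := pow_le_pow_right₀ ha (by omega)
  calc C * a ^ m * ((C1 + C2 * S + C3) * N) ≤
        C * a ^ (m + m1 + m2 + m3) * ((C1 + C2 * S + C3) * N) := by gcongr
    _ = _ := by ring

end

end Vale.Agent.P352X.ZZ.CK
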