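import Vale.Agent.P352X.R.CONK.Tail
import Vale.Agent.P352Z.R.CONK.Spec
import Vale.Agent.P352Z.R.FAR
import Vale.Agent.P352Z.Api1C

/-!
# P352Z, row CK.tail: far annuli of the plane, uniformly in the profile
-/

set_option linter.all false

open MeasureTheory Filter Topology
open scoped SchwartzMap ComplexConjugate ENNReal ContDiff

namespace Vale.Agent.P352X.ZZ.CK

open Vale.Agent.P352 Vale.Agent.P352.GF Vale.Agent.P352.BW Vale.Agent.P352.H246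
open Vale.Agent.P352.H496 Vale.Agent.P352.H755 Vale.Agent.P352.H15
open UniformSpace (Completion)
open Complex (I)

noncomputable section

namespace Tl

export Vale.Agent.P352X.CK.Tl (pr_eq dc_da fderiv_pf dv_va dv_vb deriv_cx n2_nonneg bd_norms)

variable {D : Type*} [NormedAddCommGroup D] [InnerProductSpace ℂ D] {c : Ctx D}

lemma Tv_lin (h k : V) {f g : Fn} (a : ℂ) (hf : IsTest f) (hg : IsTest g) :
    c.Tv (hk h k fun x => f x + a * g x) = c.Tv (hk h k f) + a • c.Tv (hk h k g) := by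
  rw [Far.Tv_hk c _ _ (Ap.sw_lin a hf hg), Far.Tv_hk c _ _ hf, Far.Tv_hk c _ _ hg,
    Finset.smul_sum, ← Finset.sum_add_distrib]
  refine Finset.sum_congr rfl fun m _ => ?_
  rw [Finset.smul_sum, ← Finset.sum_add_distrib]
  refine Finset.sum_congr rfl fun n _ => ?_
  rw [c.Q.lin _ _ _ a _ (c.Q.bose_fld _ (c.hT.bose m n)) hf hg, Completion.coe_add,
    Completion.coe_smul, smul_add, smul_comm a]

/-- one profile -/
lemma one (t : T3 c) (hn : NORM c) : ∃ κ : ℝ, 0 < κ ∧ ∀ g, Tst g → ∃ C : ℝ, 0 ≤ C ∧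
    ∀ (φ : ℝ → ℝ) (a A : ℝ) w (Λ : ℝ), Tst φ → ∫ t, ‖cx φ t‖ ≤ a → n2 (cx φ) ≤ a → 1 ≤ A →
      Dm (Gb c.Q) w → ‖w‖ ≤ Λ → ‖gen (Gb c.Q) w‖ ≤ Λ →
      ‖inner ℂ (Usc c.Q A 1 (c.Tv (hk va va (pr g φ)))) w‖ ≤ C * A ^ (-κ) * a * Λ := by
  obtain ⟨Cb, κ, hκ, hb⟩ := t.bas.tail
  obtain ⟨Cn, hCn, hn⟩ := hn
  refine ⟨κ, hκ, fun g hg => ?_⟩
  have dg : Dc (cx g) := Ap.dc_cx hg
  have G0 := n2_nonneg (da (da (cx g)))
  have G1 := n2_nonneg (da (da (da (cx g))))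
  refine ⟨|Cb| * 2 * (Cn * (2 * n2 (da (da (cx g))) + n2 (da (da (da (cx g)))))), by positivity,
    fun φ a A w Λ hφ h1 h2 hA hw hw0 hw1 => ?_⟩
  have dφ : Dc (cx φ) := Ap.dc_cx hφ
  have ht : IsTest (pr g φ) := Far.isTest_dc (Far.dc_pr hg hφ)
  have ha : 0 ≤ a := (n2_nonneg _).trans h2
  have hi : 0 ≤ ∫ t, ‖cx φ t‖ := integral_nonneg fun _ => norm_nonneg _
  have hΛ : 0 ≤ Λ := (norm_nonneg _).trans hw0
  have hg1 : Gn (Pa c.Q) _ _ := t.gen.ut va va va _ ht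
  obtain ⟨k1, k2, -⟩ := hn (cx g) (cx φ) dg dφ
  obtain ⟨k3, -, -⟩ := hn (da (cx g)) (cx φ) (dc_da dg) dφ
  rw [← pr_eq] at k1 k2
  have k4 : ‖gen (Pa c.Q) (c.Tv (hk va va (pr g φ)))‖ ≤
      Cn * n2 (da (da (da (cx g)))) * n2 (cx φ) := by
    rw [hg1.gen_eq, norm_smul, Complex.norm_I, one_mul, pr_eq, dv_va dg dφ]
    exact k3
  have k5 := hb _ w Λ (Cn * n2 (da (da (cx g))) * ∫ t, ‖cx φ t‖) A hA (by positivity) hg1.dm
    (fun s => (t.grp.ugGb.lip hw.gn s).trans (mul_le_mul_of_nonneg_right hw1 (abs_nonneg _)))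
    fun s hs => k2 s hs.1
  refine k5.trans ?_
  have hAk : 0 ≤ A ^ (-κ) := Real.rpow_nonneg (by linarith) _
  have k6 : (Cn * n2 (da (da (cx g))) * ∫ t, ‖cx φ t‖) + ‖c.Tv (hk va va (pr g φ))‖ +
      ‖gen (Pa c.Q) (c.Tv (hk va va (pr g φ)))‖ ≤
      Cn * (2 * n2 (da (da (cx g))) + n2 (da (da (da (cx g))))) * a := by
    have e1 := mul_le_mul_of_nonneg_left h1 (mul_nonneg hCn G0)
    have e2 := mul_le_mul_of_nonneg_left h2 (mul_nonneg hCn G0)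
    have e3 := mul_le_mul_of_nonneg_left h2 (mul_nonneg hCn G1)
    linarith
  calc _ ≤ |Cb| * A ^ (-κ) * (‖w‖ + Λ) * ((Cn * n2 (da (da (cx g))) * ∫ t, ‖cx φ t‖) +
        ‖c.Tv (hk va va (pr g φ))‖ + ‖gen (Pa c.Q) (c.Tv (hk va va (pr g φ)))‖) := by
        gcongr
        exact le_abs_self _
    _ ≤ |Cb| * A ^ (-κ) * (Λ + Λ) *
        (Cn * (2 * n2 (da (da (cx g))) + n2 (da (da (da (cx g))))) * a) := by gcongr
    _ = _ := by ring

end Tl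

open Tl

variable {D : Type*} [NormedAddCommGroup D] [InnerProductSpace ℂ D]

/-- **row CK.tail** -/
theorem tail_row (c : Ctx D) [Fact c.can] (t : T3 c) (hp : PRIM) (hn : NORM c) : TAIL c := by
  obtain ⟨κ, hκ, h1⟩ := one t hn
  obtain ⟨χ, Cp, hχ, -, hCp, hp⟩ := hp
  refine ⟨κ, hκ, fun g hg => ?_⟩
  obtain ⟨C, hC, h2⟩ := h1 g hg
  obtain ⟨a, ha⟩ : ∃ a : ℝ, a = max (∫ t, ‖cx χ t‖) (n2 (cx χ)) := ⟨_, rfl⟩
  have ha0 : 0 ≤ a := ha ▸ (n2_nonneg _).trans (le_max_right _ _)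
  refine ⟨C * (2 * Cp + a), by positivity, fun ρ A w Λ hρ hs hA hw => ?_⟩
  obtain ⟨R, hR, hRs, hRρ, hRb⟩ := hp ρ hρ hs
  have hA0 : 0 < A := by linarith
  have hΛ : 0 ≤ Λ := (norm_nonneg _).trans hw.n0
  have hAk : 0 ≤ A ^ (-κ) := Real.rpow_nonneg hA0.le _
  have hR' : Tst (deriv R) := Ap.cs_deriv hR
  have tR : IsTest (pr g R) := Far.isTest_dc (Far.dc_pr hg hR)
  have tR' : IsTest (pr g (deriv R)) := Far.isTest_dc (Far.dc_pr hg hR')
  have tχ : IsTest (pr g χ) := Far.isTest_dc (Far.dc_pr hg hχ)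
  obtain ⟨b1, b2⟩ := bd_norms hRs hRb
  have k1 := h2 R _ A _ Λ hR b1 b2 hA hw.dgp hw.np hw.ngp
  have k2 := h2 χ a A w Λ hχ (ha ▸ le_max_left _ _) (ha ▸ le_max_right _ _) hA hw.dg hw.n0 hw.ng
  have e1 : pr g ρ = fun x => pr g (deriv R) x + ((∫ t, ρ t : ℝ) : ℂ) * pr g χ x := by
    funext z
    simp only [pr]
    rw [hRρ (be z)]
    push_cast
    ring
  have e2 : dv vb (pr g R) = pr g (deriv R) := by
    rw [pr_eq, dv_vb (g := cx g) (φ := cx R) (Ap.dc_cx hg) (Ap.dc_cx hR), deriv_cx hR, pr_eq]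
  have g1 : Gn (Pb c.Q) _ _ := t.gen.ut vb va va _ tR
  rw [e2] at g1
  have g2 := g1.comm (A := Usc c.Q A 1) fun s => by
    have h3 : scp A 1 (s • vb) = s • vb := null_ext (by simp) (by simp) (by simp)
    rw [Pb, t.grp.sc_ut A 1 _ hA0 one_pos, h3]
  have g3 := t.grp.ugPb.symm g2 hw.dp.gn
  rw [g3, map_smul, inner_smul_left, norm_mul, RCLike.norm_conj, Complex.norm_I, one_mul] at k1
  have e3 := Far.usc_Tv t.grp hg hρ hA0
  rw [e1, Tv_lin _ _ _ tR' tχ, map_add, map_smul] at e3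
  have k3 : A * ‖inner ℂ (c.Tv (hk va va (pr (kL g A) ρ))) w‖ ≤
      C * A ^ (-κ) * (2 * (Cp * ∫ t, |ρ t|)) * Λ + (∫ t, |ρ t|) * (C * A ^ (-κ) * a * Λ) := by
    have h3 := congrArg (fun v => ‖inner ℂ v w‖) e3
    simp only [inner_add_left, inner_smul_left, norm_mul, RCLike.norm_conj, Complex.norm_real,
      Real.norm_eq_abs, abs_of_pos hA0] at h3
    rw [← h3]
    refine (norm_add_le _ _).trans (add_le_add k1 ?_)
    rw [norm_mul, RCLike.norm_conj, Complex.norm_real]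
    exact mul_le_mul (norm_integral_le_integral_norm ρ) k2 (norm_nonneg _)
      (integral_nonneg fun _ => abs_nonneg _)
  have e4 : A ^ (-1 - κ) = A⁻¹ * A ^ (-κ) := by
    rw [sub_eq_add_neg, Real.rpow_add hA0, Real.rpow_neg_one]
  rw [e4]
  refine le_of_mul_le_mul_left (k3.trans (le_of_eq ?_)) hA0
  field_simp

end

end Vale.Agent.P352X.ZZ.CK
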