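import Vale.Agent.P352X.R.CONK.A1
import Vale.Agent.P352Z.R.CONK.Spec
import Vale.Agent.P352Z.R.GRP.C
import Vale.Agent.P352Z.R.CONK.Tail

/-!
# P352Z, row CK.a1: the part above the plane, and the order `Θ T` (helper43)
-/

set_option linter.all false

open MeasureTheory Filter Topology
open scoped SchwartzMap ComplexConjugate ENNReal ContDiff

namespace Vale.Agent.P352X.ZZ.CK

open Vale.Agent.P352 Vale.Agent.P352.GF Vale.Agent.P352.BW Vale.Agent.P352.H246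
open Vale.Agent.P352.H496 Vale.Agent.P352.H755 Vale.Agent.P352.H15
open UniformSpace (Completion)
open Far Vale.Agent.P352X.Cont

noncomputable section

namespace A1p

export Vale.Agent.P352X.CK.A1p (yk co fa qol_eq sm_pol sm_qol tst_wt wt_kL fa_le bd_abv avg)

/-! ### weights -/

/-! ### the profile above the plane -/

variable {D : Type*} [NormedAddCommGroup D] [InnerProductSpace ℂ D] {c : Ctx D}

/-- `‖ϑ(f abv)‖ ≤ C δ^(-1/2)` -/
theorem th_abv (h : NORM c) {f : P3 → ℝ} {θ1 θ : ℝ → ℝ} (hf : Tst f) (h1 : Tst θ1) (hθ : Bump θ) :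
    ∃ C : ℝ, 0 < C ∧ ∀ δ, 0 < δ → δ ≤ 1 → ‖c.Th (pr f (abv θ1 θ δ))‖ * Real.sqrt δ ≤ C := by
  obtain ⟨C, C0, hC⟩ := h
  obtain ⟨B, hB⟩ := bd_abv h1 hθ
  have n := Tl.n2_nonneg (da (da (cx f)))
  refine ⟨C * n2 (da (da (cx f))) * Real.sqrt B + 1, by positivity,
    fun δ h0 hδ => le_trans ?_ (le_add_of_nonneg_right zero_le_one)⟩
  have ha := tst_abv h1 hθ h0
  have k := (hC (cx f) (cx (abv θ1 θ δ)) (Ap.dc_cx hf) (Ap.dc_cx ha)).2.2
  rw [← Tl.pr_eq, Tl.deriv_cx ha] at k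
  refine (mul_le_mul_of_nonneg_right k (Real.sqrt_nonneg δ)).trans ?_
  rw [mul_assoc]
  refine mul_le_mul_of_nonneg_left ?_ (by positivity)
  rw [n2, mul_comm, ← Real.sqrt_mul h0.le]
  refine Real.sqrt_le_sqrt (le_trans (le_of_eq ?_) (hB δ h0 hδ))
  simp only [cx, Complex.norm_real, Real.norm_eq_abs, sq_abs]

/-! ### linear algebra -/

lemma Taa_sum {ι : Type*} (t : Finset ι) (a : ι → ℂ) {f : ι → Fn} (hf : ∀ i, IsTest (f i))
    (v : D) : Taa c (fun z => ∑ i ∈ t, a i * f i z) v = ∑ i ∈ t, a i • Taa c (f i) v := by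
  simp only [Taa, Ctx.Tf, Grp.T_hk c.hT _ _ (Grp.test_sum t a hf), Grp.T_hk c.hT _ _ (hf _),
    Grp.fld_sum (Grp.T_fld c.hT _ _) t a hf, Finset.smul_sum]
  rw [Finset.sum_comm (s := t)]
  refine Finset.sum_congr rfl fun m _ => ?_
  rw [Finset.sum_comm (s := t)]
  exact Finset.sum_congr rfl fun n _ => Finset.sum_congr rfl fun i _ => smul_comm _ _ _

lemma abk (g : GEN c) (f : P3 → ℝ) (φ : ℝ → ℝ) {ψ : Completion D} (h : DK c ψ) :
    c.AbK f φ ψ = ∑ j, ∑ k, (co j k : ℂ) *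
      inner ℂ (c.Th (pr (wt (pol j) f) φ)) (gen (c.Ky (tv (yk k))) ψ) := by
  have e0 : wt (pol 0) f = f := funext fun y => one_mul _
  have e1 : wt (pol 1) f = fun y => y.2 0 * f y := rfl
  have e2' : wt (pol 2) f = fun y => y.2 1 * f y := rfl
  have e3 : wt (pol 3) f = fun y => d2 y.2 y.2 * f y := rfl
  simp only [Ctx.AbK, Fin.sum_univ_four, e0, e1, e2', e3, (g.ky _ ψ h.1 h.2.1 h.2.2).gen_eq,
    Fin.sum_univ_two, inner_add_right, inner_sub_right, inner_smul_right, ← Complex.coe_smul]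
  simp [co, yk, d2, e2]
  ring

end A1p

open A1p

variable {D : Type*} [NormedAddCommGroup D] [InnerProductSpace ℂ D] {c : Ctx D}

theorem A1p.order [Fact c.can] (t : Tools c) {w W κ f ρ θ1 θ a0 u0 X} {φ : ℝ → ℝ} {δ : ℝ}
    (d : Dat c w W κ f ρ θ1 θ a0 u0) (x : RX c a0 u0 X) (hφ : Tst φ)
    (sφ : tsupport φ ⊆ Set.Ioi (-u0)) (h0 : 0 < δ) :
    Tendsto (fun L => inner ℂ (w1L W (pairF sq2 κ f ρ φ δ L)) (X c.Om)) atTop (𝓝 0) := by
  obtain ⟨y, r, -, hs, hX⟩ := x.loc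
  have tr := t.tri.opt f φ (-a0) a0 u0 y r X d.tf hφ d.sf sφ (neg_neg a0).le
    (fun z hz => ⟨(hs hz).1, by linarith [(hs hz).2]⟩) hX
  have hd := tst_dlt d.tr h0
  have lim : ∀ j, Tendsto (fun L : ℝ => (fa L j : ℂ) * inner ℂ (Usc c.Q L 1
      (c.Tv (hk va va (pr (wt (qol j) κ) (dlt δ ρ))))) (X (c.Th (pr (wt (pol j) f) φ))))
      atTop (𝓝 0) := fun j => by
    refine squeeze_zero_norm' ?_ (tendsto_zero_iff_norm_tendsto_zero.1
      (limP t.grp t.bas (tst_wt (sm_qol j) d.cut.1) hd (X (c.Th (pr (wt (pol j) f) φ)))))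
    filter_upwards [eventually_ge_atTop (1 : ℝ)] with L hL
    rw [norm_mul, Complex.norm_real]
    exact mul_le_of_le_one_left (norm_nonneg _) (fa_le j hL)
  have := tendsto_finset_sum Finset.univ fun j _ => lim j
  rw [Finset.sum_const_zero] at this
  refine this.congr' ?_
  filter_upwards [eventually_gt_atTop (0 : ℝ)] with L hL
  rw [(t.cv.pair W κ f ρ φ δ L d.isW d.cut.1 d.tf d.tr hφ h0 hL).2, sum_inner]
  refine Finset.sum_congr rfl fun j _ => ?_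
  have a := dc_pr (tst_wt (sm_qol j) (tst_kL d.cut.1 hL)) hd
  have b := dc_pr (tst_kL (tst_wt (sm_qol j) d.cut.1) hL) hd
  have e : pr (wt (qol j) (kL κ L)) (dlt δ ρ) = fun z => ∑ _i : Unit,
      ((fa L j * L : ℝ) : ℂ) * pr (kL (wt (qol j) κ) L) (dlt δ ρ) z := by
    funext z
    simp only [pr, wt_kL j κ hL, Finset.univ_unique, Finset.sum_singleton]
    push_cast
    ring
  rw [tr.right j _ ⟨isTest_dc a, a.2, Set.subset_univ _⟩, e,
    Taa_sum _ _ fun _ => isTest_dc b, usc_Tv t.grp (tst_wt (sm_qol j) d.cut.1) hd hL,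
    Finset.univ_unique, Finset.sum_singleton, Completion.coe_smul, inner_smul_left,
    inner_smul_left, Complex.conj_ofReal, Complex.conj_ofReal, Complex.ofReal_mul, mul_assoc]
  rfl

theorem A1p.lim (t : Tools c) (bp : BP0 c) {w W κ f ρ θ1 θ a0 u0 X} {δ : ℝ}
    (d : Dat c w W κ f ρ θ1 θ a0 u0) (x : RX c a0 u0 X) (h0 : 0 < δ) (hu : δ ≤ u0) :
    Tendsto (fun L => inner ℂ (w0L w (pairF sq2 κ f ρ (abv θ1 θ δ) δ L)) (X c.Om)) atTop
      (𝓝 (∑ j, ∑ k, (co j k : ℂ) * ∫ u, (dlt δ ρ u : ℂ) *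
        inner ℂ (c.Th (pr (wt (pol j) f) (abv θ1 θ δ)))
          (gen (c.Ky (tv (yk k) + u • vb)) (X c.Om)))) := by
  obtain ⟨y, r, hr, hs, hX⟩ := x.loc
  have ha := tst_abv d.t1 d.bump h0
  have hd := tst_dlt d.tr h0
  have sd : tsupport (dlt δ ρ) ⊆ Set.Ioo (-(3 / 4 * δ)) (3 / 4 * δ) := fun u hu => by
    obtain ⟨a, b⟩ := Ap.tsupport_dlt_Icc d.sr h0 hu
    constructor <;> linarith
  have lim := fun j k => bp (3 / 4 * δ) 1 y r X (pr (wt (pol j) f) (abv θ1 θ δ)) κ (dlt δ ρ) (yk k)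
    one_pos hr (fun z hz => ⟨by linarith [(hs hz).1], by linarith [(hs hz).2, d.ha]⟩) hX x.good
    (have a := dc_pr (tst_wt (sm_pol j) d.tf) ha;
      ⟨isTest_dc a, a.2, fun z hz => by
        obtain ⟨b1, b2⟩ := tsupport_pr _ _ hz
        have b3 : δ ≤ be z := supp_abv θ1 d.bump h0 b2
        have b4 : al z < a0 := d.sf (tsupport_mul_subset_right b1)
        exact ⟨by linarith, by linarith [d.ha]⟩⟩) d.cut hd sd
  simp only [bar_pr] at lim
  refine (tendsto_finset_sum _ fun j _ => tendsto_finset_sum _ fun k _ =>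
    (lim j k).const_mul (co j k : ℂ)).congr' ?_
  filter_upwards [eventually_gt_atTop (0 : ℝ)] with L hL
  have sp : tsupport (pairF sq2 κ f ρ (abv θ1 θ δ) δ L) ⊆ U2 := by
    rw [show (pairF sq2 κ f ρ (abv θ1 θ δ) δ L : V × V → ℂ) = pf0 sq2 κ f ρ (abv θ1 θ δ) δ L from
      sch_coe (dc_pf0 sm_xx d.cut.1 d.tf d.tr ha h0 hL), pf0_eq]
    intro z hz
    obtain ⟨b1, b2⟩ := tsupport_two _ _ _ hz
    refine late_be ?_
    rintro _ rfl _ rfl
    exact (supp_dlt d.sr h0 le_rfl (tsupport_pr _ _ b1).2).2.trans_le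
      (supp_abv θ1 d.bump h0 (tsupport_pr _ _ b2).2)
  rw [t.cv.early w W _ d.tp d.isW sp, (t.cv.pair W κ f ρ _ δ L d.isW d.cut.1 d.tf d.tr ha h0 hL).1,
    sum_inner]
  refine Finset.sum_congr rfl fun j _ => ?_
  have e : pr (wt (qol j) (kL κ L)) (dlt δ ρ) = fun z => ∑ k, (co j k : ℂ) *
      pr (wt (fun x => d2 (x - yk k) (x - yk k)) (kL κ L)) (dlt δ ρ) z := by
    funext z
    simp only [pr, wt, qol_eq, Finset.sum_mul, Complex.ofReal_sum]
    refine Finset.sum_congr rfl fun k _ => ?_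
    push_cast
    ring
  rw [e, Taa_sum _ _ fun k => isTest_dc (dc_pr (tst_wt (p := fun x => d2 (x - yk k) (x - yk k))
    (smooth_d2 (contDiff_id.sub contDiff_const) (contDiff_id.sub contDiff_const))
    (tst_kL d.cut.1 hL)) hd)]
  change _ = inner ℂ (Completion.toComplL (𝕜 := ℂ) _) _
  simp only [map_sum, map_smul, sum_inner, inner_smul_left, Complex.conj_ofReal]
  rfl

theorem A1p.near (t : Tools c) {w W κ f ρ θ1 θ a0 u0 X} (d : Dat c w W κ f ρ θ1 θ a0 u0)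
    (x : RX c a0 u0 X) : Tendsto (fun δ : ℝ => (∑ j, ∑ k, (co j k : ℂ) * ∫ u, (dlt δ ρ u : ℂ) *
        inner ℂ (c.Th (pr (wt (pol j) f) (abv θ1 θ δ)))
          (gen (c.Ky (tv (yk k) + u • vb)) (X c.Om))) -
      (∫ t, ρ t : ℝ) * c.AbK f (abv θ1 θ δ) (X c.Om)) (𝓝[>] 0) (𝓝 0) := by
  obtain ⟨y, r, hr, hs, hX⟩ := x.loc
  have hs' : dc y r ⊆ {z | be z < -u0 ∧ 1 < al z} :=
    fun z hz => ⟨(hs hz).1, by linarith [(hs hz).2, d.ha]⟩
  obtain ⟨C, -, hC⟩ := t.kp.dom y r u0 1 hr d.hu one_pos hs'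
  have dk := (hC _ _ (Pr.of_mem hX) (t.smv.dom _ (t.smv.app X _ x.good t.smv.vac)).1).1
  have key : ∀ j k, Tendsto (fun δ : ℝ => (∫ u, (dlt δ ρ u : ℂ) *
      inner ℂ (c.Th (pr (wt (pol j) f) (abv θ1 θ δ))) (gen (c.Ky (tv (yk k) + u • vb)) (X c.Om))) -
      (∫ t, ρ t : ℝ) * inner ℂ (c.Th (pr (wt (pol j) f) (abv θ1 θ δ)))
        (gen (c.Ky (tv (yk k))) (X c.Om))) (𝓝[>] 0) (𝓝 0) := fun j k => by
    obtain ⟨B, B0, hB⟩ := th_abv t.norm (tst_wt (sm_pol j) d.tf) d.t1 d.bump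
    obtain ⟨hc, hη⟩ := t.kp.shift y r u0 1 X (yk k) hr d.hu one_pos hs' hX x.good
    have n : 0 ≤ ∫ t, |ρ t| := integral_nonneg fun t => abs_nonneg _
    refine NormedAddGroup.tendsto_nhds_zero.2 fun η η0 => ?_
    have p : 0 < η / (((∫ t, |ρ t|) + 1) * B) := by positivity
    obtain ⟨e, e0, he⟩ := Metric.eventually_nhds_iff.1 (hη _ p)
    filter_upwards [Ioc_mem_nhdsGT d.hu, Ioc_mem_nhdsGT e0, Ioc_mem_nhdsGT one_pos]
      with δ h1 h2 h3
    refine (avg (ε := η / (((∫ t, |ρ t|) + 1) * B) * Real.sqrt δ) hc d.tr d.sr h1.1 h1.2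
      fun u hu => (he (by simpa using hu.trans_le h2.2)).trans (mul_le_mul_of_nonneg_left
        (Real.sqrt_le_sqrt hu.le) p.le)).trans_lt ?_
    rw [mul_left_comm (‖_‖ : ℝ)]
    refine (mul_le_mul_of_nonneg_left (mul_le_mul_of_nonneg_left (hB δ h3.1 h3.2) p.le) n).trans_lt
      ?_
    rw [show η / (((∫ t, |ρ t|) + 1) * B) * B = η / ((∫ t, |ρ t|) + 1) by field_simp,
      mul_div_assoc', div_lt_iff₀ (by positivity)]
    linarith
  have := tendsto_finset_sum Finset.univ fun j _ => tendsto_finset_sum Finset.univ fun k _ =>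
    (key j k).const_mul (co j k : ℂ)
  simp only [mul_zero, Finset.sum_const_zero] at this
  refine this.congr fun δ => ?_
  simp only [abk t.gen f _ dk, Finset.mul_sum, mul_sub, Finset.sum_sub_distrib, mul_left_comm]

theorem a1_row (c : Ctx D) [Fact c.can] : Tools c → BP0 c → A1 c := fun t bp =>
  ⟨fun w W κ f ρ θ1 θ a0 u0 X d x η η0 => by
    filter_upwards [NormedAddGroup.tendsto_nhds_zero.1 (A1p.near t d x) η η0, Ioc_mem_nhdsGT d.hu]
      with δ h1 h2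
    exact (((A1p.lim t bp d x h2.1 h2.2).sub_const _).norm.eventually_lt_const h1).mono
      fun L h => h.le,
  fun w W κ f ρ θ1 θ a0 u0 X φ δ d x a b e => A1p.order t d x a b e⟩

end

end Vale.Agent.P352X.ZZ.CK
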