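import Vale.Agent.P352X.R.CONK.AB
import Vale.Agent.P352Z.R.CONK.Spec
import Vale.Agent.P352Z.R.Ev
import Vale.Agent.P352Z.Api1C

/-!
# P352Z (port of P352X), row CK.ab: the form above the plane is bounded
-/

set_option linter.all false

open MeasureTheory Filter Topology Set
open scoped SchwartzMap ComplexConjugate ENNReal ContDiff

namespace Vale.Agent.P352X.ZZ.CK

open Vale.Agent.P352.GF Vale.Agent.P352.BW
open Vale.Agent.P352.H755 (Tst)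
open UniformSpace (Completion)

noncomputable section

variable {D : Type*} [NormedAddCommGroup D] [InnerProductSpace ℂ D] {c : Ctx D}

namespace Ab

open Vale.Agent.P352X.CK.Ab

lemma Th_pr (c : Ctx D) {f : P3 → ℝ} {φ φ' : ℝ → ℝ} (a : ℝ) (hf : Tst f) (h : Tst φ)
    (h' : Tst φ') :
    c.Th (pr f fun t => φ t + a * φ' t) = c.Th (pr f φ) + (a : ℂ) • c.Th (pr f φ') := by
  rw [← Ev.Th_lin c a (Ap.test_pr hf h) (Ap.test_pr hf h')]
  congr 1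
  funext z
  simp only [pr]
  push_cast
  ring

/-- the splitting of the form -/
lemma split (t : T3 c) {f : P3 → ℝ} {φ : ℝ → ℝ} (hf : Tst f) (hφ : Tst φ) {χ ψ : Completion D}
    (h : Gn c.S0 (c.Th (pr f φ)) (χ + (2 : ℂ) • ∑ i, gen (Mi c.Q i)
      (c.Th (pr (fun y => y.2 i * f y) φ)) - gen (Pa c.Q) (c.Th (pr (fun y => d2 y.2 y.2 * f y) φ))))
    (hψ : DK c ψ) : c.AbK f φ ψ = inner ℂ (c.Th (pr f φ)) (gen c.Sk ψ) + inner ℂ χ ψ := by
  have h1 := fun i => (t.grp.ugM i).symm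
    (t.gen.mith i _ (Ap.test_pr (Cont.tst_xi hf i) hφ)).dm.gn (hψ.2.1 i).gn
  have h2 := t.grp.ugPa.symm
    (Gn.dm (W := Pa c.Q) (t.gen.uth va _ (Ap.test_pr (Cont.tst_xx hf) hφ))).gn hψ.2.2.gn
  have h3 := t.kt.ug0.symm h ((t.kt.dom ψ).1 hψ.1).2.gn
  rw [Ctx.AbK, (t.kt.split ψ hψ.1).1, inner_add_right, h3, inner_sub_left, inner_add_left,
    inner_smul_left, sum_inner]
  unfold Cont.xi at h1
  unfold Cont.xx at h2
  simp only [h1, h2, map_ofNat]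
  ring

/-- one dilate -/
lemma dil1 [Fact c.can] (t : T3 c) (sc : SCH c) (dt : DT c) {f : P3 → ℝ} {v : ℝ → ℝ} (hf : Tst f) (hv : D0 v) :
    ∃ C, 0 ≤ C ∧ ∀ ψ s, Dm c.Sk ψ → 0 < s → ‖inner ℂ (c.Th (pr f (dil s v))) (gen c.Sk ψ)‖ ≤
      C * (‖ψ‖ + ‖gen c.Sk ψ‖) * Real.sqrt s := by
  obtain ⟨ell, c0, e⟩ := t.ell
  obtain ⟨cc, dd, h⟩ := sc ell c0 e
  obtain ⟨m, C, C0, hC⟩ := dt ell c0 e (cx f) (Ap.dc_cx hf)
  set a := C * (n2 (cx fun t => t * deriv v t) + n2 (cx v))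
  set b := ‖gen c.Sk (Tht ell (ft3 (da (cx f))) v)‖
  have a0 : 0 ≤ a := mul_nonneg C0 (add_nonneg (n2_nonneg _) (n2_nonneg _))
  have b0 : 0 ≤ b := norm_nonneg _
  refine ⟨a + b, add_nonneg a0 b0, fun ψ s hψ hs => ?_⟩
  have d := Ap.d0_dil hv hs.ne'
  have h1 := hC _ d.1
  have e1 : (fun t => t * deriv (dil s v) t) = dil s fun t => t * deriv v t := by
    funext t
    rw [Ap.deriv_dil, dil]
    ring
  rw [← Ap.pr_eq, e1, n2_dil hs, n2_dil hs, ← mul_add, mul_left_comm] at h1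
  have h2 : ‖gen c.Sk (Tht ell (ft3 (da (cx f))) (dil s v))‖ = Real.sqrt s * b := by
    refine (pow_left_inj₀ (norm_nonneg _) (by positivity) two_ne_zero).1 ?_
    rw [h.nrm _ _ m d, h.sdd _ _ hv hs, mul_pow, Real.sq_sqrt hs.le, h.nrm _ _ m hv, mul_assoc]
  rw [← sub_add_cancel (c.Th _) (Tht ell (ft3 (da (cx f))) (dil s v)), inner_add_left,
    t.kt.ugk.symm (h.dom _ _ m d).gn hψ.gn]
  refine (norm_add_le_of_le (norm_inner_le_norm _ _) (norm_inner_le_norm _ _)).trans ?_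
  rw [h2]
  have := mul_le_mul_of_nonneg_right h1 (norm_nonneg (gen c.Sk ψ))
  have s0 := Real.sqrt_nonneg s
  nlinarith [mul_nonneg s0 (mul_nonneg a0 (norm_nonneg ψ)),
    mul_nonneg s0 (mul_nonneg b0 (norm_nonneg (gen c.Sk ψ)))]

theorem ab_thm [Fact c.can] (t : T3 c) (nm : NORM c) (sc : SCH c) (dt : DT c) (k0 : K0T c) :
    AB c := fun f θ1 θ hf h1 h => by
  obtain ⟨C1, p1, b1⟩ := nm
  obtain ⟨C2, p2, b2⟩ := k0 f hf
  obtain ⟨C3, p3, b3⟩ := dil1 t sc dt hf (d0_om h one_pos four_pos)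
  obtain ⟨C4, p4, b4⟩ := bds h1 h
  have p5 := n2_nonneg (da (da (cx f)))
  set n := n2 (da (da (cx f)))
  refine ⟨C2 * (C4 + C4) + |θ1 0| * C3 + C1 * n * C4, 1, by positivity, one_pos,
    fun δ ψ hδ hδ1 hψ => ?_⟩
  obtain ⟨d1, d2, d3⟩ := b4 δ hδ hδ1
  obtain ⟨χ, g, hχ⟩ := b2 _ (Ap.tst_abv h1 h hδ)
  obtain ⟨N, n1, n2'⟩ := ex_pow hδ hδ1
  have s0 : 0 < 4 ^ N * δ := by positivity
  have k1 := (t.kt.split ψ hψ.1).2
  have r := tst_rem h1 h hδ s0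
  have e : abv θ1 θ δ = fun t => rem θ1 θ δ (4 ^ N * δ) t + θ1 0 * om θ δ (4 ^ N * δ) t := by
    funext t
    rw [rem, sub_add_cancel]
  have q1 := (b1 _ _ (Ap.dc_cx hf) (Ap.dc_cx r)).2.2
  have e2 : deriv (cx (rem θ1 θ δ (4 ^ N * δ))) = cx (deriv (rem θ1 θ δ (4 ^ N * δ))) :=
    funext fun t => Ap.fderiv_cx (r.1.differentiable (by simp) t) 1
  change ‖c.Th (pf (cx f) (cx _))‖ ≤ C1 * n * n2 (deriv (cx _)) at q1
  rw [← Ap.pr_eq, e2] at q1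
  have q2 := q1.trans (mul_le_mul_of_nonneg_left (d3 _ n1 n2') (by positivity))
  have q3 := tele h (Λ := fun φ => inner ℂ (c.Th (pr f φ)) (gen c.Sk ψ))
    (fun φ φ' a a' => by
      simpa [inner_add_left] using congrArg (fun v => inner ℂ v (gen c.Sk ψ)) (Th_pr c 1 hf a a'))
    (fun s hs => b3 ψ s ((t.kt.dom ψ).1 hψ.1).1 hs) hδ N
  have q4 : ‖inner ℂ (c.Th (pr f (om θ δ (4 ^ N * δ)))) (gen c.Sk ψ)‖ ≤
      C3 * (‖ψ‖ + ‖gen c.SK ψ‖) := q3.trans ((mul_le_of_le_one_right (by positivity)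
    (Real.sqrt_le_one.2 n2')).trans (by gcongr))
  have q5 := hχ.trans (mul_le_mul_of_nonneg_left (add_le_add d1 d2) p2)
  rw [split t hf (Ap.tst_abv h1 h hδ) g hψ, e, Th_pr c _ hf r (d0_om h hδ s0).1, inner_add_left,
    inner_smul_left, Complex.conj_ofReal]
  refine (norm_add_le_of_le (norm_add_le_of_le (norm_inner_le_norm _ _) (norm_mul_le _ _))
    (norm_inner_le_norm _ _)).trans ?_
  rw [Complex.norm_real, Real.norm_eq_abs]
  have x1 := mul_le_mul q2 k1 (norm_nonneg _) (by positivity)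
  have x2 := mul_le_mul_of_nonneg_left q4 (abs_nonneg (θ1 0))
  have x3 := mul_le_mul_of_nonneg_right q5 (norm_nonneg ψ)
  nlinarith [mul_nonneg (mul_nonneg (mul_nonneg p1 p5) p4) (norm_nonneg ψ),
    mul_nonneg (mul_nonneg p2 p4) (norm_nonneg (gen c.SK ψ))]

end Ab

theorem ab_row (c : Ctx D) [Fact c.can] (t : T3 c) (nm : NORM c) (sc : SCH c) (dt : DT c)
    (k0 : K0T c) : AB c := Ab.ab_thm t nm sc dt k0

end

end Vale.Agent.P352X.ZZ.CK
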