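import Vale.Agent.P352X.R.CONK.CV
import Vale.Agent.P352Z.R.CONK.Spec
import Vale.Agent.P352Z.R.FAR
import Vale.Agent.P352Z.Api1C

/-!
# P352Z: row CK.cv (covariance and orderings)
-/

set_option linter.all false

open MeasureTheory Filter Topology
open scoped SchwartzMap ComplexConjugate ENNReal ContDiff

namespace Vale.Agent.P352X.ZZ.CK

open Vale.Agent.P352 Vale.Agent.P352.GF Vale.Agent.P352.BW Vale.Agent.P352.H246
open Vale.Agent.P352.H496 Vale.Agent.P352.H755 Vale.Agent.P352.H15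
open UniformSpace (Completion)

noncomputable section

namespace Cvr

export Vale.Agent.P352X.CK.Cvr (contr sum32 sum21 swp_apply open_U1 open_U2 coe_sum3
  smooth_pol smooth_qol tst_wt tst_dlt sq2_sub)

lemma prod4 (A B C E : Ix → ℝ) : ∑ k, ∑ l, ∑ p, ∑ q, A k * B l * C p * E q =
    (∑ k, A k) * (∑ l, B l) * (∑ p, C p) * ∑ q, E q := by
  simp only [← Finset.mul_sum, ← Finset.sum_mul]

lemma coef (L : Ix → V) (K M : I2) (n : Ix) (σ : ℝ) : ∑ k, ∑ l, ∑ p, ∑ q,
    ((eta k * va k * (eta l * va l) * (eta p * va p) : ℝ) : ℂ) * (L2 L K (k, l) * L2 L M (p, q) *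
      ((σ * eta n * (eta q * L n q) : ℝ) : ℂ)) = ((mdot va (L K.1) * mdot va (L K.2) *
        mdot va (L M.1) * (σ * eta n * mdot (L n) (L M.2)) : ℝ) : ℂ) := by
  simp only [GF.mdot, L2, ← Complex.ofReal_mul, ← Complex.ofReal_sum]
  congr 1
  rw [Finset.mul_sum _ _ (σ * eta n), ← prod4]
  exact Finset.sum_congr rfl fun _ _ => Finset.sum_congr rfl fun _ _ =>
    Finset.sum_congr rfl fun _ _ => Finset.sum_congr rfl fun _ _ => by ring

lemma sum43 {H α β γ δ : Type*} [AddCommMonoid H] [Fintype α] [Fintype β] [Fintype γ] [Fintype δ]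
    (F : α → α → α → α → β → γ → δ → H) :
    ∑ k, ∑ l, ∑ p, ∑ q, ∑ K, ∑ M, ∑ n, F k l p q K M n =
      ∑ K, ∑ M, ∑ n, ∑ k, ∑ l, ∑ p, ∑ q, F k l p q K M n :=
  calc _ = ∑ p : α × α × α × α, ∑ q : β × γ × δ,
        F p.1 p.2.1 p.2.2.1 p.2.2.2 q.1 q.2.1 q.2.2 := by simp only [Fintype.sum_prod_type]
    _ = _ := Finset.sum_comm
    _ = _ := by simp only [Fintype.sum_prod_type]

/-- the contraction of the indices with `a a a ∂` -/
lemma key {H : Type*} [AddCommGroup H] [Module ℂ H] {L : Ix → V} (hL : IsLor L) {μ σ : ℝ}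
    (ha : ∀ k, mdot va (L k) = μ * (eta k * va k)) (X : I2 → I2 → Ix → H) :
    ∑ k, ∑ l, ∑ p, ∑ q, ((eta k * va k * (eta l * va l) * (eta p * va p) : ℝ) : ℂ) •
      ∑ K, ∑ M, (L2 L K (k, l) * L2 L M (p, q)) •
        ∑ n, ((σ * eta n * (eta q * L n q) : ℝ) : ℂ) • X K M n =
    ((μ ^ 3 * σ : ℝ) : ℂ) • ∑ k, ∑ l, ∑ p, ∑ q,
      ((eta k * va k * (eta l * va l) * (eta p * va p) : ℝ) : ℂ) • X (k, l) (p, q) q := by
  have e1 : ∑ k, ∑ l, ∑ p, ∑ q, ((eta k * va k * (eta l * va l) * (eta p * va p) : ℝ) : ℂ) •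
      ∑ K, ∑ M, (L2 L K (k, l) * L2 L M (p, q)) •
        ∑ n, ((σ * eta n * (eta q * L n q) : ℝ) : ℂ) • X K M n = ∑ K, ∑ M, ∑ n, (∑ k, ∑ l, ∑ p, ∑ q,
        ((eta k * va k * (eta l * va l) * (eta p * va p) : ℝ) : ℂ) * (L2 L K (k, l) *
          L2 L M (p, q) * ((σ * eta n * (eta q * L n q) : ℝ) : ℂ))) • X K M n := by
    simp only [Finset.smul_sum, Finset.sum_smul, smul_smul]
    exact sum43 _
  rw [e1]
  simp only [coef, ha, hL.1, Fintype.sum_prod_type, Finset.smul_sum, smul_smul]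
  refine Finset.sum_congr rfl fun k _ => Finset.sum_congr rfl fun l _ =>
    Finset.sum_congr rfl fun p _ => Finset.sum_congr rfl fun q _ => ?_
  rw [Finset.sum_eq_single q]
  · simp only [bas, if_true, ← Complex.ofReal_mul]
    congr 2
    linear_combination (μ ^ 3 * σ * (eta k * va k * (eta l * va l) * (eta p * va p))) * eta_sq q
  · intro m _ hm
    simp [bas, Ne.symm hm]
  · exact fun h => absurd (Finset.mem_univ q) h

/-- the pull back of a derivative -/
lemma p22_pull {s : ℝ} {L : Ix → V} {a : V} {F G : S2} (hs : 0 < s) (hL : IsLor L)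
    (e : ∀ x y, G (x, y) = F (sim s L a x, sim s L a y)) (q : Ix) (x y : V) :
    (∑ n, ((s⁻¹ * eta n * (eta q * L n q) : ℝ) : ℂ) • p22 n G : S2) (x, y) =
      p22 q F (sim s L a x, sim s L a y) := by
  have k : ∀ m, ∑ n, s⁻¹ * eta n * (eta q * L n q) * (s * L n m) = bas q 1 m := fun m => by
    have := lor_transpose hL q m
    rw [show ∑ n, s⁻¹ * eta n * (eta q * L n q) * (s * L n m) =
      eta q * ∑ n, eta n * L n q * L n m by
        rw [Finset.mul_sum]
        exact Finset.sum_congr rfl fun n _ => by field_simp, this]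
    unfold bas
    split_ifs
    exacts [eta_sq q, mul_zero _]
  simp only [SchwartzMap.sum_apply, SchwartzMap.smul_apply, Ev.p22_sim e, smul_eq_mul,
    Finset.mul_sum]
  rw [Finset.sum_comm]
  simp only [← mul_assoc _ _ (p22 _ F _), ← Complex.ofReal_mul, ← Finset.sum_mul,
    ← Complex.ofReal_sum, k]
  simp [bas, apply_ite]

variable {D : Type*} [NormedAddCommGroup D] [InnerProductSpace ℂ D] {c : Ctx D}

lemma w0L_apply (w : I2 → I2 → S2 →L[ℂ] Completion D) (F : S2) : w0L w F = ∑ k, ∑ l, ∑ p, ∑ q,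
    ((eta k * va k * (eta l * va l) * (eta p * va p) : ℝ) : ℂ) • w (k, l) (p, q) (p22 q F) := by
  simp only [w0L, ContinuousLinearMap.sum_apply, ContinuousLinearMap.smul_apply,
    ContinuousLinearMap.comp_apply]

/-- covariance up to multiples of the vacuum -/
def Cov (c : Ctx D) (w : I2 → I2 → S2 →L[ℂ] Completion D) : Prop :=
  ∀ s L a K M (F G : S2), 0 < s → IsLor L → (∀ x y, G (x, y) = F (sim s L a x, sim s L a y)) →
    ∃ κ : ℂ, w K M F = ∑ K', ∑ M', (L2 L K' K * L2 L M' M) • Ug c.Q s L a (w K' M' G) + κ • c.Om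

lemma Cov.one {w : I2 → I2 → S2 →L[ℂ] Completion D} (h : Cov c w) {s μ : ℝ} {L : Ix → V} {a : V}
    {F G : S2} (hs : 0 < s) (hL : IsLor L) (e : ∀ x y, G (x, y) = F (sim s L a x, sim s L a y))
    (ha : ∀ k, mdot va (L k) = μ * (eta k * va k)) :
    ∃ κ : ℂ, w0L w F = ((μ ^ 3 * s⁻¹ : ℝ) : ℂ) • Ug c.Q s L a (w0L w G) + κ • c.Om := by
  choose κ hκ using fun K M q => h s L a K M _ _ hs hL (p22_pull hs hL e q)
  refine ⟨∑ k, ∑ l, ∑ p, ∑ q, ((eta k * va k * (eta l * va l) * (eta p * va p) : ℝ) : ℂ) *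
    κ (k, l) (p, q) q, ?_⟩
  rw [w0L_apply, w0L_apply]
  simp only [hκ, smul_add, Finset.sum_add_distrib, map_sum, map_smul]
  rw [key hL ha]
  simp only [Finset.sum_smul, smul_smul]

lemma Cov.cv (g : GRP c) {w : I2 → I2 → S2 →L[ℂ] Completion D} (h : Cov c w) : Cv c (w0L w) := by
  refine ⟨fun a F G e => ?_, fun r s F G hr hs e => ?_⟩
  · have := h.one (μ := 1) (a := a) (F := F) (G := G) one_pos H496.isLor_one
      (fun x y => by rw [sim_ut, sim_ut, e]) fun k => by
        rw [← contr (r := 1) H496.isLor_one (by rw [sim_ut, add_zero, one_smul]) k, one_mul,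
          one_mul]
    simpa only [one_pow, inv_one, mul_one, Complex.ofReal_one, one_smul, Ut] using this
  · obtain ⟨hΛ, hz⟩ := g.lsc r s hr hs
    have hq : 0 < Real.sqrt (r * s) := Real.sqrt_pos.2 (by positivity)
    set Λ := bst va vb (Real.sqrt (r / s) - 1) (Real.sqrt (s / r) - 1)
    have e2 : sim 1 Λ 0 va = (r / Real.sqrt (r * s)) • va := by
      have h3 : Real.sqrt (r * s) • sim 1 Λ 0 va = r • va := by
        have : scp r s va = r • va := null_ext (by simp) (by simp) (by simp)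
        rw [← this, ← hz]
        funext n
        simp [sim]
      refine smul_right_injective _ hq.ne' (h3.trans ?_)
      simp only [smul_smul]
      rw [mul_div_cancel₀ _ hq.ne']
    have := h.one (μ := Real.sqrt (r * s) / r) (a := 0) (F := F) (G := G) hq hΛ
      (fun x y => by rw [hz, hz, e]) fun k => by
        rw [← contr hΛ e2 k]
        field_simp
    rwa [show (Real.sqrt (r * s) / r) ^ 3 * (Real.sqrt (r * s))⁻¹ = s / r ^ 2 by
      field_simp
      rw [Real.sq_sqrt (by positivity)]] at this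

lemma cov_tp {e : Bool} {w : I2 → I2 → S2 →L[ℂ] Completion D} (h : TP2 c.Q c.T e w) : Cov c w :=
  fun s L a K M F G hs hL e => by
    simpa only [Ug_apply c.Q hs hL] using h.cov s L a K M F G hs hL e

lemma cov_W {W : I2 → I2 → S2 →L[ℂ] Completion D} (h : IsW c W) : Cov c W :=
  fun s L a K M F G hs hL e => ⟨0, by rw [zero_smul, add_zero]; exact h.2 s L a K M F G hs hL e⟩

lemma cov_W' {W : I2 → I2 → S2 →L[ℂ] Completion D} (h : IsW c W) :
    Cov c fun K M => W M K ∘L swp := fun s L a K M F G hs hL e => ⟨0, by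
  rw [zero_smul, add_zero, Finset.sum_comm]
  simp only [ContinuousLinearMap.comp_apply]
  rw [h.2 s L a M K (swp F) (swp G) hs hL fun x y => e y x]
  simp only [mul_comm]⟩

lemma late {w W : I2 → I2 → S2 →L[ℂ] Completion D} (hw : TP2 c.Q c.T false w) (hW : IsW c W)
    (K M : I2) {F : S2} (hF : tsupport F ⊆ U1) : w K M F = W M K (swp F) := by
  refine sub_eq_zero.1 (ST.ker2 (w K M - W M K ∘L swp) open_U1 (fun f g _ _ hs => ?_) F hF)
  simp only [ContinuousLinearMap.sub_apply, ContinuousLinearMap.comp_apply]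
  rw [hw.fac K M f g _ (fun _ _ => rfl) fun x hx y hy => hs (Set.mk_mem_prod hx hy) x rfl y rfl,
    hW.1 M K g f _ fun x y => mul_comm (f y) (g x)]
  simp

lemma early {w W : I2 → I2 → S2 →L[ℂ] Completion D} (hw : TP2 c.Q c.T false w) (hW : IsW c W)
    (K M : I2) {F : S2} (hF : tsupport F ⊆ U2) : w K M F = W K M F := by
  refine sub_eq_zero.1 (ST.ker2 (w K M - W K M) open_U2 (fun f g _ _ hs => ?_) F hF)
  simp only [ContinuousLinearMap.sub_apply]
  rw [hw.swap K M (ST.tens f g) (ST.tens g f) fun x y => mul_comm (g x) (f y),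
    hw.fac M K g f _ (fun _ _ => rfl) fun y hy x hx => hs (Set.mk_mem_prod hx hy) y rfl x rfl,
    hW.1 K M f g _ fun x y => rfl]
  simp

lemma Taa_eq {h : Fn} (hh : IsTest h) (v : D) : Taa c h v =
    ∑ k, ∑ l, ((eta k * va k * (eta l * va l) : ℝ) : ℂ) • c.T k l h v := by
  unfold Taa Ctx.Tf
  exact Finset.sum_congr rfl fun k _ => Finset.sum_congr rfl fun l _ => Far.T_smul c k l _ hh v

lemma prod {W : I2 → I2 → S2 →L[ℂ] Completion D} (hW : IsW c W) {h g : Fn} {F : S2}
    (hh : IsTest h) (hg : IsTest g) (e : ∀ x y, F (x, y) = h x * g y) :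
    w0L W F = ((Taa c h (c.Thf g c.Q.vac) : D) : Completion D) ∧
    w1L W F = ((c.Thf g (Taa c h c.Q.vac) : D) : Completion D) := by
  rw [w1L, w0L_apply, w0L_apply, Taa_eq hh, Taa_eq hh, Ev.Thf_eq c hg, Ev.Thf_eq c hg]
  obtain ⟨h, rfl⟩ := id hh
  obtain ⟨g, rfl⟩ := id hg
  have e' := fun q => Ev.p22_tens (g := g) e q
  simp only [ContinuousLinearMap.comp_apply, fun K M q => hW.1 K M h _ _ (e' q),
    fun K M q => hW.1 K M _ h (swp (p22 q F)) fun x y => (e' q y x).trans (mul_comm _ _),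
    Ev.ev_pd, fsum (Ev.fld c _ _) hh, fsum (Ev.fld c _ _) (Ap.test_pd _ hg),
    fsmul (Ev.fld c _ _) hh, fsmul (Ev.fld c _ _) (Ap.test_pd _ hg), Finset.smul_sum, smul_smul,
    Ev.coe_sum, Completion.coe_smul]
  constructor
  · simp only [Complex.ofReal_mul]
  · rw [Grp.sum4]
    simp only [Complex.ofReal_mul, mul_comm]

end Cvr

open Cvr

variable {D : Type*} [NormedAddCommGroup D] [InnerProductSpace ℂ D]

theorem cv_row (c : Ctx D) : T3 c → ANN → CV c := fun t a => by
  refine ⟨fun w F => (w0L_apply w F).symm, fun e w h => (cov_tp h).cv t.grp,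
    fun W h => ⟨(cov_W h).cv t.grp, (cov_W' h).cv t.grp⟩, fun w W F hw hW hF => ?_,
    fun w W F hw hW hF => ?_, fun W h g F hW hh hg e => prod hW hh hg e,
    fun W κ f ρ θ1 δ L hW hκ hf hρ h1 hδ hL => ?_⟩
  · simp only [w1L, w0L_apply, ContinuousLinearMap.comp_apply,
      fun K M q => late hw hW K M (F := p22 q F) ((Ev.tsupport_ld _ F).trans hF)]
  · simp only [w0L_apply,
      fun K M q => early hw hW K M (F := p22 q F) ((Ev.tsupport_ld _ F).trans hF)]
  · have d1 := fun j => Far.dc_pr (tst_wt (smooth_qol j) (Far.tst_kL hκ hL)) (tst_dlt hρ hδ)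
    have d2' := fun j => Far.dc_pr (tst_wt (smooth_pol j) hf) h1
    have e : pairF sq2 κ f ρ θ1 δ L = ∑ j, ST.tens (sch (pr (wt (qol j) (kL κ L)) (dlt δ ρ)))
        (sch (pr (wt (pol j) f) θ1)) := by
      ext z
      rw [a.app sq2 κ f ρ θ1 δ L (smooth_d2 contDiff_id contDiff_id) hκ hf hρ h1 hδ hL, sq2_sub]
      simp only [SchwartzMap.sum_apply, ST.tens_apply, Far.sch_apply (d1 _), Far.sch_apply (d2' _),
        pr, wt, pl_2, Finset.sum_mul, Complex.ofReal_sum, ← Complex.ofReal_mul]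
      exact Finset.sum_congr rfl fun j _ => congrArg _ (by ring)
    have p := fun j => prod hW (F := ST.tens (sch (pr (wt (qol j) (kL κ L)) (dlt δ ρ)))
      (sch (pr (wt (pol j) f) θ1))) (Far.isTest_dc (d1 j)) (Far.isTest_dc (d2' j)) fun x y => by
        rw [ST.tens_apply, Far.sch_apply (d1 j), Far.sch_apply (d2' j)]
    rw [e, map_sum, map_sum]
    exact ⟨Finset.sum_congr rfl fun j _ => (p j).1, Finset.sum_congr rfl fun j _ => (p j).2⟩

end

end Vale.Agent.P352X.ZZ.CK
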