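import Vale.Agent.P352X.R.CONK.DT
import Vale.Agent.P352Z.R.CONK.Spec
import Vale.Agent.P352Z.R.IB.Dt

/-!
# P352Z (port of P352X), row CK.dt
-/

set_option linter.all false

open MeasureTheory Filter Topology Set
open scoped SchwartzMap Real

namespace Vale.Agent.P352X.ZZ.CK

open Vale.Agent.P352 Vale.Agent.P352.GF Vale.Agent.P352.H755
open UniformSpace (Completion)

noncomputable section

variable {D : Type*} [NormedAddCommGroup D] [InnerProductSpace ℂ D]

theorem dt_thm (c : Ctx D) : DT c := fun ell c0 h g hg => by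
  obtain ⟨C, h0, hC⟩ := Ib.dt_sq h (sch g)
  have e0 : ⇑(Ib.dA (sch g)) = da g := by rw [Ib.coe_dA, Api4.coe_sch hg]; rfl
  rw [e0, Api4.coe_sch hg] at hC
  refine ⟨e0 ▸ memLp_ft3_m3 (Ib.dA (sch g)), √C, Real.sqrt_nonneg _, fun φ hφ => ?_⟩
  have := hC (Ib.S1 φ)
  have e : (fun t : ℝ => (t : ℂ) * deriv (cx φ) t) = cx fun t => t * deriv φ t := funext fun t => by
    rw [show deriv (cx φ) t = _ from
      (hφ.1.differentiable (by simp) t).hasDerivAt.ofReal_comp.deriv, cx, Complex.ofReal_mul]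
  rw [Ib.S1_coe hφ, e] at this
  refine (Real.le_sqrt_of_sq_le this).trans ?_
  rw [Real.sqrt_mul h0]
  refine mul_le_mul_of_nonneg_left (Real.sqrt_le_iff.2 ⟨add_nonneg (Real.sqrt_nonneg _)
    (Real.sqrt_nonneg _), ?_⟩) (Real.sqrt_nonneg _)
  rw [add_sq, n2, n2, ← Ib.q2, ← Ib.q2, Real.sq_sqrt (Ib.q2_nonneg _), Real.sq_sqrt (Ib.q2_nonneg _)]
  exact add_le_add_left (le_add_of_nonneg_right (by positivity)) _

theorem dt_row (c : Ctx D) : T3 c → DT c := fun _ => dt_thm c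

end

end Vale.Agent.P352X.ZZ.CK
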