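import Vale.Agent.P352X.R.CONK.FIN
import Vale.Agent.P352Z.R.CONK.CV

/-!
# P352Z: row CK.fin (continuation along the null direction)
-/

set_option linter.all false

open MeasureTheory Filter Topology Set
open scoped SchwartzMap ComplexConjugate ENNReal ContDiff

namespace Vale.Agent.P352X.ZZ.CK

open Vale.Agent.P352 Vale.Agent.P352.GF Vale.Agent.P352.BW Vale.Agent.P352.H246
open Vale.Agent.P352.H496 Vale.Agent.P352.H755 Vale.Agent.P352.H15
open UniformSpace (Completion)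

noncomputable section

namespace Fnl

export Vale.Agent.P352X.CK.Fnl (ta ta_apply norm_va norm_sva sn_ta sn_ta_sub tsupport_ta in_ta dg
  qol_smul pr_wt)

variable {D : Type*} [NormedAddCommGroup D] [InnerProductSpace ℂ D] {c : Ctx D}

/-- matrix elements of the translations along `a` have positive frequency -/
lemma posf (g : GRP c) (b : BAS c) (u : 𝓢(ℝ, ℂ)) (hu : ∀ p, 0 ≤ p → ft1 u p = 0)
    (x y : Completion D) : Integrable (fun s => u s * inner ℂ x (Pa c.Q s y)) ∧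
      ∫ s, u s * inner ℂ x (Pa c.Q s y) = 0 := by
  have hI : Integrable fun s => u s • Pa c.Q s y :=
    (u.integrable.norm.mul_const ‖y‖).mono' (u.continuous.smul
      (g.ugPa.cont' continuous_id continuous_const)).aestronglyMeasurable
      (.of_forall fun s => by rw [norm_smul, g.ugPa.nrm])
  simp only [← inner_smul_right]
  refine ⟨hI.const_inner x, ?_⟩
  obtain ⟨h1, h2⟩ := c.bt.smear SN.isPair_mdot (m := volume) (y := fun s : ℝ => s • va)
    (by fun_prop) u.integrable y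
  have h3 := c.bt.norm_le h1 le_rfl y ((b.cone y).mono fun p hp => by
    rw [norm_le_zero_iff, ← hu _ ((cone_iff p).1 hp).2.1]
    simp only [SN.ch, ft1, md_smul, md_va', Complex.ofReal_mul])
  rw [zero_mul, norm_le_zero_iff, ← h2] at h3
  rw [integral_inner hI]
  exact (congrArg _ h3).trans (inner_zero_right x)

variable {w W : I2 → I2 → S2 →L[ℂ] Completion D} {κ f : P3 → ℝ} {ρ θ1 θ : ℝ → ℝ} {δ L : ℝ}
  {ψ ψ' : Completion D}

lemma err_pos (g : GRP c) (b : BAS c) (h : DK c ψ) (u : 𝓢(ℝ, ℂ)) (hu : ∀ p, 0 ≤ p → ft1 u p = 0) :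
    ∫ s, u s * Err c w κ f ρ θ1 θ δ L (Pa c.Q s ψ) = 0 := by
  have p := posf g b u hu
  have e1 := fun s => (h.1.comm (g.pa_S s)).2
  have e2 := fun i s => ((h.2.1 i).comm fun t => (g.ga_pa (t • e2 i) s).symm).2
  have e3 := fun s => g.ugPa.gen_shift h.2.2 s
  simp only [Err, Ctx.AbK, e1, e2, e3, Fin.sum_univ_two, mul_sub, mul_add, mul_left_comm (u _)]
  rw [integral_sub, integral_add, integral_sub, integral_add]
  · simp only [integral_const_mul, (p _ _).2, mul_zero, add_zero, sub_zero]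
  all_goals
    repeat' first
      | exact (p _ _).1
      | apply Integrable.const_mul
      | apply Integrable.add
      | apply Integrable.sub

lemma err_sub (h : DK c ψ) (h' : DK c ψ') : Err c w κ f ρ θ1 θ δ L ψ - Err c w κ f ρ θ1 θ δ L ψ' =
    Err c w κ f ρ θ1 θ δ L (ψ - ψ') := by
  simp only [Err, Ctx.AbK, gen_sub h.1 h'.1, fun i => gen_sub (h.2.1 i) (h'.2.1 i),
    gen_sub h.2.2 h'.2.2, inner_sub_right, Finset.sum_sub_distrib]
  ring

lemma th_sub (G G' : Sch) : c.Th (ev (G - G')) = c.Th (ev G) - c.Th (ev G') := Ev.Th_sub c G G'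

lemma th_ta (g : GRP c) (s : ℝ) (G : Sch) : c.Th (ev (ta s G)) = Pa c.Q s (c.Th (ev G)) := by
  have := g.th1 GF.one (s • va) va (ev (ta s G)) c.Q.vac H496.isLor_one ⟨_, rfl⟩
  rw [c.Q.U_vac _ _ _ one_pos H496.isLor_one, sim_ut, add_zero] at this
  rw [Ctx.Th, Ctx.Th, Ctx.Thf, Ctx.Thf, Pa, Ut, g.coe _ _ _ _ one_pos H496.isLor_one, ← this]
  congr 3
  funext x
  rw [sim_ut, ev, ta_apply, add_sub_cancel_right, ev]

/-- the moments of the null energy on the vacuum tend weakly to zero -/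
theorem lim_Taa [Fact c.can] (g : GRP c) (b : BAS c) (hκ : Tst κ) (hρ : Tst ρ) (j : Fin 4)
    (v : Completion D) :
    Tendsto (fun L => inner ℂ (c.Tv (hk va va (pr (wt (qol j) (kL κ L)) ρ))) v) atTop (𝓝 0) := by
  have h1 := Cvr.tst_wt (Cvr.smooth_qol j) hκ
  refine squeeze_zero_norm' ?_ (by simpa using (Far.limP g b h1 hρ v).norm)
  filter_upwards [eventually_ge_atTop (1 : ℝ)] with L hL
  have h0 : 0 < L := by linarith
  have ht := Far.isTest_dc (Far.dc_pr (Far.tst_kL h1 h0) hρ)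
  have e : c.Tv (hk va va (pr (wt (qol j) (kL κ L)) ρ)) =
      ((Real.sqrt L ^ dg j : ℝ) : ℂ) • c.Tv (hk va va (pr (kL (wt (qol j) κ) L) ρ)) := by
    rw [pr_wt j h0, Far.Tv_hk c _ _ ht, Far.Tv_hk c _ _ (Ap.sw_cmul _ ht)]
    simp only [Far.T_smul c _ _ _ ht, Completion.coe_smul, Finset.smul_sum]
    simp only [smul_comm ((Real.sqrt L ^ dg j : ℝ) : ℂ)]
  rw [e, Far.usc_Tv g h1 hρ h0, inner_smul_left, inner_smul_left, norm_mul, norm_mul,
    Complex.conj_ofReal, Complex.conj_ofReal, Complex.norm_real, Complex.norm_real,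
    Real.norm_of_nonneg (by positivity), Real.norm_of_nonneg h0.le]
  gcongr
  calc Real.sqrt L ^ dg j ≤ Real.sqrt L ^ 2 :=
        pow_le_pow_right₀ (Real.one_le_sqrt.2 hL) (by fin_cases j <;> simp [dg])
    _ = L := Real.sq_sqrt h0.le

/-- a leg below the plane does not contribute -/
theorem low [Fact c.can] (t : Tools c) (hw : TP2 c.Q c.T false w) (hW : IsW c W) (hκ : Tst κ)
    (hf : Tst f) (hρ : Tst ρ) (sr : tsupport ρ ⊆ Icc (-1 / 2) (1 / 2)) {φ : ℝ → ℝ} (hφ : Tst φ) (hδ : 0 < δ)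
    (sφ : tsupport φ ⊆ Iio (-δ / 2)) (v : D) :
    Tendsto (fun L => inner ℂ (w0L w (pairF sq2 κ f ρ φ δ L)) (v : Completion D)) atTop (𝓝 0) := by
  have hq : ContDiff ℝ ∞ sq2 := smooth_d2 contDiff_id contDiff_id
  have := tendsto_finset_sum Finset.univ fun j _ => lim_Taa t.grp t.bas hκ (Ap.tst_dlt hρ hδ.ne') j
    ((c.Thf (bar (pr (wt (pol j) f) φ)) v : D) : Completion D)
  rw [Finset.sum_const_zero] at this
  refine this.congr' ?_
  filter_upwards [eventually_gt_atTop (0 : ℝ)] with L hL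
  rw [t.cv.late w W _ hw hW, (t.cv.pair W κ f ρ φ δ L hW hκ hf hρ hφ hδ hL).2, sum_inner]
  · refine Finset.sum_congr rfl fun j _ => ?_
    rw [Completion.inner_coe,
      (t.tri.herm _ _ _ (Ap.test_pr (Cvr.tst_wt (Cvr.smooth_pol j) hf) hφ)).2]
    exact Completion.inner_coe _ _
  · refine (Ap.tsupp_sub (K := {z | be z.1 ∈ tsupport (dlt δ ρ) ∧ be z.2 ∈ tsupport φ})
      (((isClosed_tsupport _).preimage (by fun_prop)).inter
        ((isClosed_tsupport _).preimage (by fun_prop))) fun z hz => ?_).trans fun z hz => ?_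
    · rw [t.ann.app sq2 κ f ρ φ δ L hq hκ hf hρ hφ hδ hL, Complex.ofReal_ne_zero] at hz
      exact ⟨subset_tsupport _ (right_ne_zero_of_mul (right_ne_zero_of_mul
        (left_ne_zero_of_mul hz))), subset_tsupport _ (right_ne_zero_of_mul
          (right_ne_zero_of_mul hz))⟩
    · refine Far.late_iff.2 fun x hx y hy _ h2 => ?_
      obtain rfl : x = z.1 := hx
      obtain rfl : y = z.2 := hy
      have h3 := (Ap.tsupport_dlt_Icc sr hδ hz.1).1
      have h4 : be z.2 < -δ / 2 := sφ hz.2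
      linarith

/-- the continuation -/
theorem cont (t : Tools c) (v : VIT) (uf : UF c) (rf : RF c) {u0 : ℝ}
    (d : Dat c w W κ f ρ θ1 θ (-1) u0) {G : Sch} (hG : In {z | be z < -u0} (ev G)) {η : ℝ}
    (hη : 0 < η) : ∀ᶠ δ in 𝓝[>] (0 : ℝ), ∀ᶠ L in atTop,
      ‖Err c w κ f ρ θ1 θ δ L (c.Th (ev G))‖ ≤ η := by
  obtain ⟨R, hR1, hR⟩ : ∃ R, 1 ≤ R ∧ ∀ z ∈ tsupport (ev G), ‖z‖ ≤ R := by
    obtain ⟨R, hR⟩ := hG.2.1.isCompact.isBounded.exists_norm_le
    exact ⟨max R 1, le_max_right _ _, fun z hz => (hR z hz).trans (le_max_left _ _)⟩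
  have hG' : In {z | -(2 * R) ≤ be z ∧ be z < -u0 ∧ -R ≤ al z} (ev G) :=
    ⟨hG.1, hG.2.1, fun z hz => ⟨(abs_le.1 ((abs_be_le z).trans (by linarith [hR z hz]))).1,
      hG.2.2 hz, (abs_le.1 ((abs_al_le z).trans (hR z hz))).1⟩⟩
  obtain ⟨m, C, δ0, hC, hδ0, h⟩ := uf w W κ f ρ θ1 θ (-1) u0 (-(2 * R)) d
  have hin : ∀ s a, R + |s| ≤ a →
      In {z | -(2 * R) ≤ be z ∧ be z ≤ -u0 ∧ -a ≤ al z} (ev (ta s G)) := fun s a ha =>
    in_ta hG' s fun z hz => by
      simp only [mem_setOf_eq, be_sub, be_smul, be_va, al_sub, al_smul, al_va] at hz ⊢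
      exact ⟨by linarith [hz.1], by linarith [hz.2.1], by linarith [hz.2.2, neg_abs_le s]⟩
  obtain ⟨C', hC', h'⟩ := sn_ta_sub m G
  have s0 := Lie.sn_nonneg m G
  have ev1 : ∀ᶠ i : ℝ × ℝ in (𝓝[>] (0 : ℝ)).curry atTop, 0 < i.1 ∧ i.1 ≤ δ0 ∧ 1 ≤ i.2 := by
    rw [eventually_curry_iff]
    filter_upwards [Ioc_mem_nhdsGT hδ0] with δ hδ
    filter_upwards [eventually_ge_atTop (1 : ℝ)] with L hL
    exact ⟨hδ.1, hδ.2, hL⟩
  have key := v (ℝ × ℝ) ((𝓝[>] (0 : ℝ)).curry atTop)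
    (fun i s => Err c w κ f ρ θ1 θ i.1 i.2 (c.Th (ev (ta s G))))
    (C * R ^ m * (2 ^ m * sn m G + C')) (R + 2) (m + (m + 1)) (ev1.mono fun i hi s => ?_)
    (ev1.mono fun i hi s r => ?_) (ev1.mono fun i hi u hu => ?_) (fun s hs => ?_) 0
  · have e : ta 0 G = G := by
      ext x
      rw [ta_apply, zero_smul, sub_zero]
    rw [e] at key
    have := Metric.tendsto_nhds.1 key η hη
    rw [eventually_curry_iff] at this
    exact this.mono fun δ h => h.mono fun L h => by simpa using h.le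
  · have hs := abs_nonneg s
    refine (h (R + |s|) _ _ _ (by linarith) (hin s _ le_rfl) hi.1 hi.2.1 hi.2.2).2.trans ?_
    calc C * (R + |s|) ^ m * sn m (ta s G)
        ≤ C * (R * (1 + |s|)) ^ m * ((2 ^ m * sn m G + C') * (1 + |s|) ^ (m + 1)) := by
          gcongr
          · exact Lie.sn_nonneg _ _
          · nlinarith
          · refine (sn_ta m s G).trans ?_
            rw [mul_right_comm]
            gcongr
            · linarith
            · linarith
            · exact m.le_succ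
      _ = _ := by rw [mul_pow, pow_add]; ring
  · have hs := abs_nonneg s
    have hr := abs_nonneg r
    have a1 : 1 ≤ R + |s| + |r| := by linarith
    have i1 := hin s (R + |s| + |r|) (by linarith)
    have i2 := hin r (R + |s| + |r|) (by linarith)
    rw [err_sub (h _ _ _ _ a1 i1 hi.1 hi.2.1 hi.2.2).1 (h _ _ _ _ a1 i2 hi.1 hi.2.1 hi.2.2).1,
      ← th_sub]
    refine (h _ (ta s G - ta r G) _ _ a1 (Ap.in_sub' i1 i2) hi.1 hi.2.1 hi.2.2).2.trans ?_
    calc C * (R + |s| + |r|) ^ m * sn m (ta s G - ta r G)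
        ≤ C * (R * (1 + |s| + |r|)) ^ m *
          ((2 ^ m * sn m G + C') * (1 + |s| + |r|) ^ (m + 1) * |s - r|) := by
          gcongr
          · exact Lie.sn_nonneg _ _
          · nlinarith
          · refine (h' s r).trans ?_
            gcongr
            exact le_add_of_nonneg_left (by positivity)
      _ = _ := by rw [mul_pow, pow_add]; ring
  · simp only [th_ta t.grp]
    exact err_pos t.grp t.bas (h R G _ _ hR1 (Ap.in_mono hG' fun z hz => ⟨hz.1, hz.2.1.le, hz.2.2⟩)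
      hi.1 hi.2.1 hi.2.2).1 u hu
  · refine Metric.tendsto_nhds.2 fun ε hε => ?_
    rw [eventually_curry_iff]
    refine (rf w W κ f ρ θ1 θ (-1) u0 _ d (in_ta hG' s fun z hz => ?_) (ε / 2)
      (half_pos hε)).mono fun δ h => h.mono fun L h => ?_
    · simp only [mem_setOf_eq, be_sub, be_smul, be_va, al_sub, al_smul, al_va] at hz ⊢
      exact ⟨by linarith [hz.2.1], by linarith [hz.2.2]⟩
    · rw [dist_zero_right]
      linarith

end Fnl

open Fnl

variable {D : Type*} [NormedAddCommGroup D] [InnerProductSpace ℂ D]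

theorem fin_row (c : Ctx D) [Fact c.can] : Tools c → VIT → UF c → RF c → CONK0 c := by
  intro t v uf rf w κ f ρ θ1 θ f3 hw hκ hf sf hρ sr h1 hθ h3 η hη
  obtain ⟨W, hW⟩ := t.wk
  obtain ⟨G, rfl⟩ := h3.1
  obtain ⟨u, hu, hu'⟩ := h3.2.1.isCompact.exists_forall_le' (f := fun z => -be z)
    (by fun_prop) (a := 0) fun z hz => neg_pos.2 (h3.2.2 hz)
  obtain ⟨χ, c1, c2, c3, -⟩ := Ap.ex_step (show -(u / 4) < -(u / 8) by linarith)
  have ta : Tst fun t => χ t * θ1 t := Ap.cs_mul_l c1 h1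
  have tb : Tst fun t => (1 - χ t) * θ1 t := Ap.cs_mul_l (contDiff_const.sub c1) h1
  have sa : tsupport (fun t => χ t * θ1 t) ⊆ Ioi (-(u / 2)) :=
    (Ap.tsupp_sub isClosed_Ici fun t ht => by
      by_contra h
      exact ht (by rw [c2 t (not_le.1 h).le, zero_mul])).trans
      (Ici_subset_Ioi.2 (by linarith))
  have sb : tsupport (fun t => (1 - χ t) * θ1 t) ⊆ Iic (-(u / 8)) :=
    Ap.tsupp_sub isClosed_Iic fun t ht => by
      by_contra h
      exact ht (by rw [c3 t (not_le.1 h).le, sub_self, zero_mul])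
  have e1 : ∀ δ, abv θ1 θ δ = abv (fun t => χ t * θ1 t) θ δ := fun δ => funext fun t => by
    simp only [abv]
    split_ifs with h
    · rw [c3 t (by linarith), one_mul]
    · rfl
  have hq : ContDiff ℝ ∞ sq2 := smooth_d2 contDiff_id contDiff_id
  filter_upwards [cont t v uf rf ⟨hw, hW, hκ, hf, hρ, sr, ta, hθ, rfl, half_pos hu, sf, sa⟩
    (G := G) ⟨h3.1, h3.2.1, fun z hz => by
      have := hu' z hz
      show be z < -(u / 2)
      linarith⟩ (half_pos hη), Ioo_mem_nhdsGT (show 0 < u / 4 by linarith)] with δ k1 hδ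
  filter_upwards [k1, Metric.tendsto_nhds.1 (low t hw hW hκ.1 hf hρ sr tb hδ.1
    (sb.trans (Iic_subset_Iio.2 (by linarith [hδ.2]))) (c.Thf (ev G) c.Q.vac)) _ (half_pos hη),
    eventually_gt_atTop (0 : ℝ)] with L k2 k3 hL
  have e2 : pairF (fun x => d2 x x) κ f ρ θ1 δ L = pairF sq2 κ f ρ (fun t => χ t * θ1 t) δ L +
      pairF sq2 κ f ρ (fun t => (1 - χ t) * θ1 t) δ L := by
    ext z
    rw [SchwartzMap.add_apply, t.ann.app sq2 κ f ρ _ δ L hq hκ.1 hf hρ ta hδ.1 hL,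
      t.ann.app sq2 κ f ρ _ δ L hq hκ.1 hf hρ tb hδ.1 hL, ← Complex.ofReal_add]
    refine (t.ann.app sq2 κ f ρ _ δ L hq hκ.1 hf hρ h1 hδ.1 hL z).trans (congrArg _ (by ring))
  rw [dist_zero_right] at k3
  rw [t.cv.w0, e2, map_add, inner_add_left, e1, add_sub_right_comm]
  exact (norm_add_le _ _).trans ((add_le_add k2 k3.le).trans_eq (add_halves η))

end

end Vale.Agent.P352X.ZZ.CK
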