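import Vale.Agent.P352X.R.CONK.K0T
import Vale.Agent.P352Z.R.CONK.Spec
import Vale.Agent.P352Z.R.D1.ThA
import Vale.Agent.P352Z.R.Br

/-!
# P352Z (port of P352X), row CK.k0t: the geometric part of `K0` on the leg
-/

set_option linter.all false

open MeasureTheory Filter Topology
open scoped SchwartzMap ComplexConjugate ENNReal ContDiff Real

namespace Vale.Agent.P352X.ZZ

open Vale.Agent.P352 Vale.Agent.P352.GF Vale.Agent.P352.BW Vale.Agent.P352.H755
open UniformSpace (Completion)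
open Complex (I)
open Vale.Agent.P352X.CK (n2)
open Vale.Agent.P352X.Th (mF)

noncomputable section

namespace K0

open Vale.Agent.P352X.K0

variable (F : Sch) (h k z : V) (l : V →L[ℝ] ℝ) (i : Fin 2)

/-! ### the potential in momentum space -/

variable {D : Type*} [NormedAddCommGroup D] [InnerProductSpace ℂ D] {c : Ctx D}
  {ell : (V → ℂ) → Completion D} {c0 : ℝ} (E : Ell c ell c0) {ψ : V → ℂ}
include E

theorem ell_perp (hψ : MemLp ψ 2 mF) : inner ℂ c.Om (ell ψ) = 0 := by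
  have b : SN.Bd (Fc.indicator fun _ => (1 : ℂ)) := SN.Bd.ind meas_Fc
  rw [Th.ell_congr' E hψ (ψ' := fun p => Fc.indicator (fun _ => (1 : ℂ)) p * ψ p)
    fun p hp => by simp [hp], ← E.phi _ _ b hψ]
  refine (Kin.inner_om_Phi c.bR c.ct b _).trans ?_
  simp [mem_Fc]

theorem gn_ell (y : V) (hψ : MemLp ψ 2 mF) (hψ' : MemLp (fun p => (mdot y p : ℂ) * ψ p) 2 mF) :
    Gn (fun t => Ut c.Q (t • y)) (ell ψ) (ell fun p => (mdot y p : ℂ) * ψ p) := by
  have n (r : ℝ) : 1 ≤ ‖(r : ℂ) + I‖ := by simpa using Complex.abs_im_le_norm ((r : ℂ) + I)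
  have n0 (r : ℝ) : (r : ℂ) + I ≠ 0 := norm_pos_iff.1 (one_pos.trans_le (n r))
  have b1 : SN.Bd fun p => ((mdot y p : ℂ) + I)⁻¹ :=
    ⟨by fun_prop, 1, fun p => by rw [norm_inv]; exact inv_le_one_of_one_le₀ (n _)⟩
  have b2 : SN.Bd fun p => (mdot y p : ℂ) * ((mdot y p : ℂ) + I)⁻¹ := ⟨by fun_prop, 1, fun p => by
    rw [norm_mul, norm_inv, mul_inv_le_iff₀ (one_pos.trans_le (n _)), one_mul]
    simpa using Complex.abs_re_le_norm ((mdot y p : ℂ) + I)⟩
  have m : MemLp (fun p => ((mdot y p : ℂ) + I) * ψ p) 2 mF := by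
    simp only [add_mul]; exact hψ'.add (hψ.const_mul I)
  have e1 := E.phi _ _ b1 m
  have e2 := E.phi _ _ b2 m
  simp only [mul_assoc, inv_mul_cancel_left₀ (n0 _)] at e1 e2
  have d := SN.Calc.Dom.of_bd (C := c.bt.toCalc) b2 (ell fun p => ((mdot y p : ℂ) + I) * ψ p)
  rw [c.cgn_ut, ← e1, ← e2]
  exact ⟨(SN.Calc.dom_Phi b1 (by fun_prop)).2 d, by
    rw [SN.Calc.Psi_Phi b1 (by fun_prop) d, SN.Calc.Psi_bd b2]⟩

theorem ell_le {G : Fn} (hG : IsTest G) {K : ℝ} (hK : 0 ≤ K) (hm : AEStronglyMeasurable ψ mF)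
    (hb : ∀ p ∈ Fc, ‖ψ p‖ ≤ K * ‖ft G p‖) :
    MemLp ψ 2 mF ∧ ‖ell ψ‖ ≤ K * (√c0 * (2 * π) ^ 2) * n2 G := by
  have b : ∀ᵐ p ∂mF, ‖ψ p‖ ≤ K * ‖ft G p‖ := (ae_restrict_mem meas_Fc).mono hb
  have m := (memLp_ft hG Fc).of_le_mul hm b
  refine ⟨m, (pow_le_pow_iff_left₀ (norm_nonneg _) (by unfold n2; positivity) two_ne_zero).1 ?_⟩
  have i := Th.sq_int (test_memLp (test_ft hG) 2)
  have i1 : ∫ p, ‖ψ p‖ ^ 2 ∂mF ≤ ∫ p, K ^ 2 * ‖ft G p‖ ^ 2 :=
    (integral_mono_ae (Th.sq_int m) (i.const_mul _).restrict (b.mono fun p hp =>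
      (pow_le_pow_left₀ (norm_nonneg _) hp 2).trans_eq (mul_pow _ _ _))).trans
      (setIntegral_le_integral (i.const_mul _) (.of_forall fun p => by positivity))
  rw [integral_const_mul, ft_plancherel_norm hG] at i1
  rw [Th.ell_sq E m, mul_pow, mul_pow, mul_pow, n2, Real.sq_sqrt E.nonneg,
    Real.sq_sqrt (integral_nonneg fun _ => by positivity)]
  exact (mul_le_mul_of_nonneg_left i1 E.nonneg).trans_eq (by ring)

lemma th_eq (G : Sch) :
    c.Th (ev G) = (-3 : ℂ) • ell fun p => (mu p : ℝ) * ft (ev (dS va G)) p := by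
  rw [E.th _ ⟨G, rfl⟩, ev_dS]

/-- the leg as a linear map -/
def ThL : Sch →ₗ[ℂ] Completion D where
  toFun F := c.Th (ev F)
  map_add' F G := by
    rw [th_eq E, th_eq E, th_eq E, ← smul_add,
      ← Th.ell_add E (memLp_mu_ft ⟨_, rfl⟩ _) (memLp_mu_ft ⟨_, rfl⟩ _)]
    simp only [← ftS_apply, map_add, SchwartzMap.add_apply, mul_add]
  map_smul' a F := by
    rw [th_eq E, th_eq E, RingHom.id_apply, smul_comm a,
      ← Th.ell_smul E a (memLp_mu_ft ⟨_, rfl⟩ _)]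
    simp only [← ftS_apply, map_smul, SchwartzMap.smul_apply, smul_eq_mul, mul_left_comm a]

lemma ThL_apply : ThL E F = c.Th (ev F) := rfl

lemma Th_perp : inner ℂ c.Om (ThL E F) = 0 := by
  rw [ThL_apply, th_eq E, inner_smul_right, ell_perp E (memLp_mu_ft ⟨_, rfl⟩ _), mul_zero]

theorem Th_le : ‖ThL E F‖ ≤ 6 * (√c0 * (2 * π) ^ 2) * n2 (dv va (dv vb (ev (dS va F)))) := by
  rw [ThL_apply, th_eq E]
  generalize dS va F = F
  have := (ell_le E (ψ := fun p => (mu p : ℂ) * ft (ev F) p)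
    (Ap.test_dv va (Ap.test_dv vb ⟨F, rfl⟩)) zero_le_two (memLp_mu_ft ⟨F, rfl⟩ _).1
    fun p hp => ?_).2
  · rw [norm_smul]
    simp only [norm_neg, Complex.norm_ofNat]
    linarith
  have a := ((mem_Fc p).1 hp)
  have b := ((mem_Fc' p).1 hp).1
  simp only [ft_dv (Ap.test_dv vb ⟨F, rfl⟩), ft_dv ⟨F, rfl⟩, norm_mul, norm_neg, Complex.norm_I,
    one_mul, Complex.norm_real, md_va', md_vb', Real.norm_of_nonneg a.1.le,
    Real.norm_of_nonneg a.2.le, Real.norm_of_nonneg b.le, ← mul_assoc]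
  exact mul_le_mul_of_nonneg_right (by linarith [mu_le hp]) (norm_nonneg _)

theorem iv_le (G : Sch) :
    MemLp (iv G) 2 mF ∧ ‖ell (iv G)‖ ≤ 2 * (√c0 * (2 * π) ^ 2) * n2 (dv vb (ev G)) := by
  have := (cont_ft ⟨G, rfl⟩).measurable
  refine ell_le E (Ap.test_dv vb ⟨G, rfl⟩) zero_le_two (by unfold iv; fun_prop) fun p hp => ?_
  have a := ((mem_Fc p).1 hp)
  have b := ((mem_Fc' p).1 hp).1
  simp only [iv, ft_dv ⟨G, rfl⟩, norm_mul, norm_neg, Complex.norm_I, one_mul, Complex.norm_real,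
    md_vb', Real.norm_of_nonneg (div_pos a.2 a.1).le, Real.norm_of_nonneg b.le, ← mul_assoc]
  exact mul_le_mul_of_nonneg_right ((div_le_iff₀ a.1).2 (by linarith [mu_le hp])) (norm_nonneg _)

theorem gn_iv (G : Sch) : Gn (Pa c.Q) ((-3 : ℂ) • ell (iv (dS va G))) (ThL E G) := by
  rw [ThL_apply, th_eq E]
  generalize dS va G = G
  have e : ∀ p ∈ Fc, (mu p : ℂ) * ft (ev G) p = (mdot va p : ℂ) * iv G p := fun p hp => by
    have : (be p : ℂ) ≠ 0 := Complex.ofReal_ne_zero.2 ((mem_Fc p).1 hp).1.ne'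
    simp only [iv, md_va]; push_cast; field_simp
  have m := memLp_mu_ft ⟨G, rfl⟩ Fc
  rw [Th.ell_congr' E m e]
  exact (gn_ell E va (iv_le E G).1 (m.ae_eq ((ae_restrict_mem meas_Fc).mono e))).smul _

/-- the bounded remainder -/
def chi : Completion D :=
  ∑ i, (3 : ℂ) • ell (iv (dS va (mS beL (mS beL (dS (ex i) (dS (ex i) F)))))) -
    (2 * I) • ThL E (mS beL F)

theorem k0_gen (g : GEN c) (kt : KT c) : Gn c.S0 (ThL E F) (chi F E +
    (2 : ℂ) • ∑ i, gen (Mi c.Q i) (ThL E (mS (xL i) F)) -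
      gen (Pa c.Q) (ThL E (∑ i, mS (xL i) (mS (xL i) F)))) := by
  have hM (i) (G : Sch) : Gn (Mi c.Q i) (ThL E G) (I • ThL E (MS i G)) := by
    simpa only [ThL_apply, ev_MS] using g.mith i _ ⟨G, rfl⟩
  have hP (G : Sch) : Gn (Pa c.Q) (ThL E G) (I • ThL E (dS va G)) := by
    simp only [ThL_apply, ev_dS]; exact g.uth va _ ⟨G, rfl⟩
  simp only [(hM _ _).gen_eq, (hP _).gen_eq]
  refine kt.k0 _ _ (fun i => ⟨(hM i F).dm, (hM i F).gen_eq ▸ ((hM i _).smul I).dm⟩) ?_ ?_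
  · simp only [chi, inner_add_right, inner_sub_right, inner_smul_right, inner_sum, Th_perp,
      ell_perp E (iv_le E _).1, mul_zero, Finset.sum_const_zero, sub_zero, add_zero]
  refine (((((Gn.sum Finset.univ fun i _ =>
    (gn_iv E (mS beL (mS beL (dS (ex i) (dS (ex i) F))))).neg).sub
    ((hP (mS beL F)).smul (2 * I))).add
    ((Gn.sum Finset.univ fun i _ => (hP (MS i (mS (xL i) F))).smul I).smul 2)).sub
    ((hP (dS va (∑ i, mS (xL i) (mS (xL i) F)))).smul I))).cast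
    (by simp only [chi, neg_smul, neg_neg]) ?_
  simp only [(hM _ _).gen_eq, gen_smul _ (hM _ _).dm, K0.MM, Fin.sum_univ_two, map_add, map_sub,
    map_smul, smul_add, smul_sub, smul_smul, mul_assoc, Complex.I_mul_I]
  match_scalars <;> ring_nf <;> simp

omit E

theorem k0t_thm [Fact c.can] (t : T3 c) : CK.K0T c := fun f hf => by
  obtain ⟨ell, c0, E⟩ := t.ell
  set f2 := fun (i : Fin 2) q => fderiv ℝ (fun q => fderiv ℝ
    (fun q => fderiv ℝ f q (pl (ex i))) q (pl (ex i))) q (pl va)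
  set f1 := fun q => fderiv ℝ (fun q => fderiv ℝ f q (pl va)) q (pl va)
  set A := √c0 * (2 * π) ^ 2
  set a := 12 * A * n2 (cx f1)
  set b := ∑ i, 6 * A * n2 (cx (f2 i))
  have hA : 0 ≤ A := by positivity
  have ha : 0 ≤ a := mul_nonneg (by positivity) (n2_nonneg _)
  have hb : 0 ≤ b := Finset.sum_nonneg fun i _ => mul_nonneg (by positivity) (n2_nonneg _)
  refine ⟨a + b, by positivity, fun φ hφ => ?_⟩
  obtain ⟨F, hF⟩ := test_pr hf hφ
  have t1 : Tst fun t => t * φ t := Ap.cs_mul_l contDiff_id hφ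
  have t2 : Tst fun t => t ^ 2 * φ t := Ap.cs_mul_l (contDiff_id.pow 2) hφ
  refine ⟨chi F E, ?_, ?_⟩
  · have := k0_gen F E t.gen t.kt
    simp only [ThL_apply, hF, ev_mS] at this
    convert this using 4
    · congr 3 with i; congr 2 with z; simp [pr]; ring
    · funext z
      simp [ev, mS_apply, show F z = _ from congrFun hF z, pr, d2]; ring
  have e1 : dv va (dv vb (ev (dS va (mS beL F)))) = pr f1 (deriv fun t => t * φ t) := by
    rw [← dv_pr_p (hf.fd _) (Ap.cs_deriv t1) be_va, ← dv_pr_b (hf.fd _) t1, ← dv_pr_p hf t1 be_va,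
      ev_dS, ev_mS, hF]
    congr 3 with z; simp [pr]; ring
  have e2 (i) : dv vb (ev (dS va (mS beL (mS beL (dS (ex i) (dS (ex i) F)))))) =
      pr (f2 i) (deriv fun t => t ^ 2 * φ t) := by
    rw [← dv_pr_b (((hf.fd _).fd _).fd _) t2, ← dv_pr_p ((hf.fd _).fd _) t2 be_va, ev_dS, ev_mS,
      ev_mS, ev_dS, ev_dS, hF, dv_pr_p hf hφ (be_ex i), dv_pr_p (hf.fd _) hφ (be_ex i)]
    congr 2 with z; simp [pr]; ring
  have h1 := Th_le (mS beL F) E
  have h2 := fun i => (iv_le E (dS va (mS beL (mS beL (dS (ex i) (dS (ex i) F)))))).2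
  simp only [e1, e2, n2_pr] at h1 h2
  refine (norm_sub_le _ _).trans ((add_le_add (norm_sum_le_of_le _ (n := fun i => 6 * A *
    n2 (cx (f2 i)) * n2 (cx (deriv fun t => t ^ 2 * φ t))) fun i _ => ?_)
    (d := a * n2 (cx (deriv fun t => t * φ t))) ?_).trans ?_)
  · rw [norm_smul, Complex.norm_ofNat]; linarith [h2 i]
  · rw [norm_smul, norm_mul, Complex.norm_ofNat, Complex.norm_I]; simp only [a]; linarith
  rw [← Finset.sum_mul]
  nlinarith [mul_nonneg ha (n2_nonneg (cx (deriv fun t => t ^ 2 * φ t))),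
    mul_nonneg hb (n2_nonneg (cx (deriv fun t => t * φ t)))]

end K0

theorem CK.k0t_row {D : Type*} [NormedAddCommGroup D] [InnerProductSpace ℂ D] (c : Ctx D)
    [Fact c.can] : T3 c → CK.K0T c := K0.k0t_thm

end

end Vale.Agent.P352X.ZZ
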