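import Vale.Agent.P352X.R.CONK.Rf
import Vale.Agent.P352Z.R.CONK.Kp
import Vale.Agent.P352Z.R.CONK.LWF
import Vale.Agent.P352Z.R.CONK.Tri

/-!
# P352Z, row CK.rf: the statement for fields to the right of the crossing leg
-/

set_option linter.all false

open MeasureTheory Filter Topology

namespace Vale.Agent.P352X.ZZ.CK

open Vale.Agent.P352 Vale.Agent.P352.GF Vale.Agent.P352.BW Vale.Agent.P352.H246
open Vale.Agent.P352.H496 Vale.Agent.P352.H755 Vale.Agent.P352.H15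
open Ev (evF barF snF InF adS)
open UniformSpace (Completion)
open Complex (I)

noncomputable section

namespace Rf

export Vale.Agent.P352X.CK.Rf (ex_dc)

variable {D : Type*} [NormedAddCommGroup D] [InnerProductSpace ℂ D] {c : Ctx D}
  {ψ φ : Completion D} {Λ Λ' : ℝ}

lemma dk_add (h : DK c ψ) (h' : DK c φ) : DK c (ψ + φ) :=
  ⟨h.1.add h'.1, fun i => (h.2.1 i).add (h'.2.1 i), h.2.2.add h'.2.2⟩

lemma dk_sub (h : DK c ψ) (h' : DK c φ) : DK c (ψ - φ) :=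
  ⟨h.1.sub h'.1, fun i => (h.2.1 i).sub (h'.2.1 i), h.2.2.sub h'.2.2⟩

lemma err_add (h : DK c ψ) (h' : DK c φ) (w κ f ρ θ1 θ δ L) : Err c w κ f ρ θ1 θ δ L (ψ + φ) =
    Err c w κ f ρ θ1 θ δ L ψ + Err c w κ f ρ θ1 θ δ L φ := by
  simp only [Err, Ctx.AbK, gen_add h.1 h'.1, fun i => gen_add (h.2.1 i) (h'.2.1 i),
    gen_add h.2.2 h'.2.2, inner_add_right, Finset.sum_add_distrib]
  ring

lemma err_sub (h : DK c ψ) (h' : DK c φ) (w κ f ρ θ1 θ δ L) : Err c w κ f ρ θ1 θ δ L (ψ - φ) =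
    Err c w κ f ρ θ1 θ δ L ψ - Err c w κ f ρ θ1 θ δ L φ := by
  rw [eq_sub_iff_add_eq, ← err_add (dk_sub h h') h', sub_add_cancel]

lemma err_zero (w κ f ρ θ1 θ δ L) : Err c w κ f ρ θ1 θ δ L 0 = 0 := by
  simp [Err, Ctx.AbK, gen_zero]

lemma lw_mono (h : Lw c ψ Λ) (e : Λ ≤ Λ') : Lw c ψ Λ' :=
  ⟨h.dg, h.dp, h.dgp, h.n0.trans e, h.ng.trans e, h.np.trans e, h.ngp.trans e⟩

lemma pk_mono {k : ℕ} (h : Pk c k ψ Λ) (e : Λ ≤ Λ') : Pk c k ψ Λ' :=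
  ⟨h.1, fun j hj => (h.2 j hj).trans e⟩

lemma nq_nonneg (k : ℕ) (v : Completion D) : 0 ≤ nq c k v :=
  Finset.sum_nonneg fun _ _ => norm_nonneg _

lemma tri_sub {f θ1 a u0} {R L R' L' : Fin 4 → Completion D} (h : Tri c f θ1 a u0 ψ R L)
    (h' : Tri c f θ1 a u0 φ R' L') :
    Tri c f θ1 a u0 (ψ - φ) (fun j => R j - R' j) fun j => L j - L' j :=
  ⟨fun j g hg => by rw [inner_sub_right, inner_sub_right, h.right j g hg, h'.right j g hg],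
    fun j g hg => by rw [inner_sub_right, inner_sub_left, h.left j g hg, h'.left j g hg]⟩

lemma th_add {f g : Fn} (hf : IsTest f) (hg : IsTest g) :
    c.Th (fun x => f x + g x) = c.Th f + c.Th g := Ev.Th_add c hf hg

lemma th_zero : c.Th (fun _ => 0) = 0 := Ev.Th_zero c

lemma th_perp (g : GRP c) {f : Fn} (hf : IsTest f) : inner ℂ c.Om (c.Th f) = 0 := Ev.perp_Th g hf

/-- the difference of a field and its bounded approximations is small, uniformly -/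
lemma approx (T : Tools c) (ub : UB c) {w W κ f ρ θ1 θ a0 u0} (d : Dat c w W κ f ρ θ1 θ a0 u0)
    {y : V} {r : ℝ} (hr : 0 < r) (hO : dc y r ⊆ {z | be z < -u0 ∧ a0 + 2 < al z})
    {f' : Ix → Ix → Sch}
    {X : ℕ → Completion D →L[ℂ] Completion D} (hf : InF (dc y r) (evF f'))
    (hX : ∀ n, X n ∈ c.N (dc y r) ∧ c.Good (X n) ∧ inner ℂ c.Om (X n c.Om) = 0)
    (hl : ∀ (v : D) (k : ℕ),
      Tendsto (fun n => nq c k (X n v - (c.Tf (evF f') v : D))) atTop (𝓝 0) ∧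
      Tendsto (fun n => nq c k (star (X n) v - (c.Tf (barF (evF f')) v : D))) atTop (𝓝 0))
    {η : ℝ} (hη : 0 < η) : ∃ n, ∀ᶠ δ in 𝓝[>] (0 : ℝ), ∀ᶠ L in atTop,
      ‖Err c w κ f ρ θ1 θ δ L (X n c.Om - c.Tv (evF f'))‖ ≤ η := by
  have g := T.grp
  have s := T.smv
  have ha := d.ha
  obtain ⟨k, m, C, δ0, C0, d0, hC⟩ := ub w W κ f ρ θ1 θ a0 u0 d
  obtain ⟨K, K0, hK⟩ := T.kp.dom y r u0 (a0 + 2) hr d.hu (by linarith) hO
  let v : Fin 4 → D := fun j => c.Thf (pr (wt (pol j) f) θ1) c.Q.vac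
  let A := fun n (u : D) => X n u - (c.Tf (evF f') u : D)
  let B := fun n (u : D) => star (X n) u - (c.Tf (barF (evF f')) u : D)
  have sA : ∀ n u, Sm c (A n u) := fun n u => s.sub _ _ (s.app _ _ (hX n).2.1 (T.gen.sm u))
    (T.gen.sm _)
  have sB : ∀ n u, Sm c (B n u) := fun n u => s.sub _ _ (s.app _ _ (s.adj _ (hX n).2.1)
    (T.gen.sm u)) (T.gen.sm _)
  let Λ := fun n => nq c k (A n c.Q.vac) + K * (nq c 2 (A n c.Q.vac) + nq c 2 (B n c.Q.vac) +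
    nq c 1 (A n c.Q.vac)) + ∑ j, (nq c 2 (A n (v j)) + nq c 2 (B n (v j)))
  have lim : Tendsto (fun n => C * 1 ^ m * Λ n) atTop (𝓝 0) := by
    simpa using (((hl c.Q.vac k).1.add (((((hl c.Q.vac 2).1.add (hl c.Q.vac 2).2).add
      (hl c.Q.vac 1).1).const_mul K))).add (tendsto_finset_sum Finset.univ fun j _ =>
        (hl (v j) 2).1.add (hl (v j) 2).2)).const_mul (C * 1 ^ m)
  obtain ⟨n, hn⟩ := (lim.eventually (gt_mem_nhds hη)).exists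
  have p1 := nq_nonneg (c := c) k (A n c.Q.vac)
  have p2 : 0 ≤ K * (nq c 2 (A n c.Q.vac) + nq c 2 (B n c.Q.vac) + nq c 1 (A n c.Q.vac)) :=
    mul_nonneg K0 (add_nonneg (add_nonneg (nq_nonneg _ _) (nq_nonneg _ _)) (nq_nonneg _ _))
  have p3 : ∀ j, 0 ≤ nq c 2 (A n (v j)) + nq c 2 (B n (v j)) := fun j =>
    add_nonneg (nq_nonneg _ _) (nq_nonneg _ _)
  have p4 : ∀ j, nq c 2 (A n (v j)) + nq c 2 (B n (v j)) ≤ Λ n := fun j =>
    (Finset.single_le_sum (fun j _ => p3 j) (Finset.mem_univ j)).trans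
      (le_add_of_nonneg_left (add_nonneg p1 p2))
  have p5 := Finset.sum_nonneg (s := Finset.univ) fun j _ => p3 j
  obtain ⟨k1, k2⟩ := hK _ _ ((Pr.of_mem (hX n).1).sub (g.pr_Tv hf)) (s.dom _ (sA n c.Q.vac)).1
  have k3 : ‖gen c.SK (A n c.Q.vac)‖ ≤ Λ n := k2.trans ((mul_le_mul_of_nonneg_left (add_le_add
    (add_le_add (s.lw _ (sA n c.Q.vac)).1.n0 (s.lw _ (sB n c.Q.vac)).1.n0)
      (s.lw _ (sA n c.Q.vac)).2.1) K0).trans (by simp only [Λ]; linarith))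
  have tri := tri_sub (T.tri.opt f θ1 1 a0 u0 y r (X n) d.tf d.t1 d.sf d.s1 ha.ge
    (fun z hz => ⟨(hO hz).1, by linarith [(hO hz).2]⟩) (hX n).1) (T.tri.fldT f θ1 1 u0 (evF f') d.tf
      d.t1 (hf.mono fun z hz => ⟨(hO hz).1.le, by linarith [(hO hz).2]⟩))
  have com : ∀ j, c.Thf (pr (wt (pol j) f) θ1) (c.Tf (evF f') c.Q.vac) = c.Tf (evF f') (v j) :=
    fun j => (T.tri.comT a0 u0 (evF f') _ c.Q.vac (Ev.in_ad va (Ap.in_pr
      (tst_wt (smooth_pol j) d.tf) d.t1 fun z h1 h2 => ⟨d.sf (tsupport_wt _ _ h1), d.s1 h2⟩))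
      (hf.mono fun z hz => ⟨(hO hz).1.le, by linarith [(hO hz).2]⟩)).symm
  simp only [com] at tri
  refine ⟨n, ?_⟩
  filter_upwards [Ioc_mem_nhdsGT d0] with δ hδ
  filter_upwards [eventually_ge_atTop 1] with L hL
  refine (hC 1 _ _ _ (Λ n) δ L le_rfl ?_ (pk_mono ((s.lw _ (sA n c.Q.vac)).2.2 k)
    (by simp only [Λ]; linarith)) k1 k3 tri (fun j => ⟨lw_mono (s.lw _ (sA n (v j))).1
      ((le_add_of_nonneg_right (nq_nonneg _ _)).trans (p4 j)), lw_mono (s.lw _ (sB n (v j))).1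
      ((le_add_of_nonneg_left (nq_nonneg _ _)).trans (p4 j))⟩) hδ.1 hδ.2 hL).trans hn.le
  exact (inner_sub_right _ _ _).trans (sub_eq_zero.2 ((hX n).2.2.trans (Ev.perp_TF g hf.tt).symm))

/-- the statement in one double cone -/
lemma cone (T : Tools c) (aa : AA c) (ub : UB c) (uf : UFT c) {w W κ f ρ θ1 θ a0 u0}
    (d : Dat c w W κ f ρ θ1 θ a0 u0) {y : V} {r : ℝ} (hr : 0 < r)
    (hO : dc y r ⊆ {z | be z < -u0 ∧ a0 + 2 < al z}) {g : Fn} (hg : In (dc y r) g) :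
    DK c (c.Th g) ∧ ∀ η > 0, ∀ᶠ δ in 𝓝[>] (0 : ℝ), ∀ᶠ L in atTop,
      ‖Err c w κ f ρ θ1 θ δ L (c.Th g)‖ ≤ η := by
  obtain ⟨G, rfl⟩ : ∃ G : Sch, ev G = g := ⟨_, Ap.ev_sch hg.1⟩
  have ha := d.ha
  obtain ⟨m, C, δ0, C0, d0, hC⟩ := uf w W κ f ρ θ1 θ a0 u0 (-(2 * (‖y‖ + 3 * |r|))) d
  have sub : dc y r ⊆ {z | -(2 * (‖y‖ + 3 * |r|)) ≤ be z ∧ be z ≤ -u0 ∧ -1 ≤ al z} := fun z hz =>
    ⟨by linarith [Kp.norm_dc hz, (abs_le.1 (abs_be_le z)).1], (hO hz).1.le, by linarith [(hO hz).2]⟩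
  have dk : ∀ F, InF (dc y r) (evF F) → DK c (c.Tv (evF F)) := fun F hF =>
    (hC 1 F δ0 1 le_rfl (hF.mono sub) d0 le_rfl le_rfl).1
  have hg' : InF (dc y r) (evF (adS va G)) := by
    rw [Ev.evF_adS]
    exact Ev.in_ad va hg
  rw [Ev.Th_def, ← Ev.evF_adS]
  refine ⟨dk _ hg', fun η hη => ?_⟩
  obtain ⟨f', X, hf, h1, hX, hl⟩ :=
    T.smv.fld y r (adS va G) m (η / 3 / (C + 1)) hg' (by positivity)
  obtain ⟨n, hn⟩ := approx T ub d hr hO hf hX hl (η := η / 3) (by positivity)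
  have h2 : InF (dc y r) (evF (f' - adS va G)) := fun i j => Ap.in_sub' (hf i j) (hg' i j)
  obtain ⟨K, -, hK⟩ := T.kp.dom y r u0 (a0 + 2) hr d.hu (by linarith) hO
  have dX : DK c (X n c.Om) := (hK _ _ (.of_mem (hX n).1)
    (T.smv.dom _ (T.smv.app _ _ (hX n).2.1 T.smv.vac)).1).1
  have e : c.Tv (evF (adS va G)) =
      X n c.Om - (X n c.Om - c.Tv (evF f')) - c.Tv (evF (f' - adS va G)) := by
    rw [sub_sub_cancel, Ev.Tv_sub, sub_sub_cancel]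
  filter_upwards [hn, aa w W κ f ρ θ1 θ a0 u0 (X n) d ⟨⟨y, r, hr, hO, (hX n).1⟩, (hX n).2.1,
    (hX n).2.2⟩ (η / 3) (by positivity), Ioc_mem_nhdsGT d0] with δ a1 a2 hδ
  filter_upwards [a1, a2, eventually_ge_atTop 1] with L b1 b2 hL
  have b3 := (hC 1 _ δ L le_rfl (h2.mono sub) hδ.1 hδ.2 hL).2
  rw [lt_div_iff₀ (by positivity)] at h1
  rw [e, err_sub (dk_sub dX (dk_sub dX (dk f' hf))) (dk _ h2), err_sub dX (dk_sub dX (dk f' hf))]
  refine (norm_sub_le _ _).trans ((add_le_add (norm_sub_le _ _) le_rfl).trans ?_)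
  rw [one_pow, mul_one] at b3
  linarith [Ev.snF_nonneg m (f' - adS va G)]

end Rf

open Rf

variable {D : Type*} [NormedAddCommGroup D] [InnerProductSpace ℂ D]

theorem rf_row (c : Ctx D) (T : Tools c) (aa : AA c) (ub : UB c) (uf : UFT c) : RF c := by
  intro w W κ f ρ θ1 θ a0 u0 g d hg
  refine (Ap.in_ind (P := fun g => DK c (c.Th g) ∧ ∀ η > 0, ∀ᶠ δ in 𝓝[>] (0 : ℝ), ∀ᶠ L in atTop,
    ‖Err c w κ f ρ θ1 θ δ L (c.Th g)‖ ≤ η) ?_ (fun g g' i i' p p' => ?_) (fun x hx => ?_) hg).2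
  · rw [th_zero]
    exact ⟨⟨dm_zero, fun _ => dm_zero, dm_zero⟩, fun η hη => .of_forall fun _ => .of_forall fun _ =>
      by rw [err_zero, norm_zero]; exact hη.le⟩
  · rw [th_add i.1 i'.1]
    refine ⟨dk_add p.1 p'.1, fun η hη => ?_⟩
    filter_upwards [p.2 _ (half_pos hη), p'.2 _ (half_pos hη)] with δ a b
    filter_upwards [a, b] with L a b
    rw [err_add p.1 p'.1]
    exact (norm_add_le _ _).trans (by linarith)
  · obtain ⟨r, hr, h1, h2⟩ := ex_dc (((isOpen_lt cont_be continuous_const).inter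
      (isOpen_lt continuous_const cont_al)).mem_nhds hx)
    exact ⟨_, h2, fun g hg => cone T aa ub uf d hr h1 (Ap.in_mono hg Set.inter_subset_left)⟩

end

end Vale.Agent.P352X.ZZ.CK
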