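import Vale.Agent.P352X.R.CONK.Sh
import Vale.Agent.P352Z.R.CONK.Ub
import Vale.Agent.P352Z.R.GEN.A
import Vale.Agent.P352Z.R.FAR
import Vale.Agent.P352Z.Api1C

/-!
# P352Z, block CONK, row SH: the centre of the cut off can be shifted (helper76)
-/

set_option linter.all false

open MeasureTheory Filter Topology Metric
open scoped SchwartzMap ComplexConjugate ENNReal ContDiff

namespace Vale.Agent.P352X.ZZ.CK

open Vale.Agent.P352 Vale.Agent.P352.GF Vale.Agent.P352.BW Vale.Agent.P352.H246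
open Vale.Agent.P352.H496 Vale.Agent.P352.H755 Vale.Agent.P352.H15
open UniformSpace (Completion)
open Complex (I)

noncomputable section

namespace Sh

export Vale.Agent.P352X.CK.Sh (tl df tst_tl tst_df pl_va be_va' tx_va' exK gen_comm)

open Ub

variable {D : Type*} [NormedAddCommGroup D] [InnerProductSpace ℂ D] {c : Ctx D}

theorem th_tr (g : GRP c) (a : V) {f : Fn} (hf : IsTest f) :
    Ut c.Q a (c.Th fun z => f (z + a)) = c.Th f := by
  have := g.th1 GF.one a va f c.Q.vac H496.isLor_one hf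
  simp only [sim_ut, add_zero, c.Q.U_vac _ _ _ one_pos H496.isLor_one] at this
  rw [Ctx.Th, Ctx.Thf, Ut, g.coe _ _ _ _ one_pos H496.isLor_one, this, Ctx.Th, Ctx.Thf]

theorem perp_th (g : GRP c) {f : Fn} (hf : IsTest f) : inner ℂ c.Om (c.Th f) = 0 := Ev.perp_Th g hf

theorem abk (g : GRP c) (s : ℝ) {f : P3 → ℝ} {φ : ℝ → ℝ} (hf : Tst f) (hφ : Tst φ)
    (ψ : Completion D) : c.AbK f φ (Pa c.Q s ψ) = c.AbK (tl s f) φ ψ := by
  have k : ∀ p : R2 → ℝ, ContDiff ℝ ∞ p → c.Th (pr (fun y => p y.2 * f y) φ) =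
      Pa c.Q s (c.Th (pr (fun y => p y.2 * tl s f y) φ)) := fun p hp => by
    refine (th_tr g (s • va) (Ap.test_pr (tst_wt hp hf) hφ)).symm.trans ?_
    simp only [pr, wt, pl_va, be_va', tl, Prod.snd_add, add_zero]
    rfl
  have k0 := k (fun _ => 1) contDiff_const
  simp only [one_mul] at k0
  have i := g.ugPa.inv_mul s
  rw [Ctx.AbK, Ctx.AbK, k0, k (fun x => d2 x x) smooth_sq2, gen_comm i (g.pa_S s) (g.pa_S _),
    gen_comm (W := Pa c.Q) i (fun t => g.ut_comm _ _) fun t => g.ut_comm _ _]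
  simp only [fun j : Fin 2 => k (fun x => x j) (by fun_prop), fun j =>
    gen_comm (W := Mi c.Q j) i (fun t => (g.ga_pa _ _).symm) (fun t => (g.ga_pa _ _).symm) ψ,
    g.ugPa.inn]

/-- `T_aa` as a continuous linear map -/
def taL (c : Ctx D) : Sch →L[ℂ] Completion D := (Gen.th c c.Q.vac va va).comp ofSch

theorem taL_sch {F : Fn} (h : IsTest F) : taL c (sch F) = c.Tv (hk va va F) :=
  (Gen.th_apply _ _ _ _).trans (congrArg (fun F => c.Tv (hk va va F)) (Ap.ev_sch h))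

theorem norm_le [Fact c.can] (g : GRP c) (j : Fin 4) {u : P3 → ℝ} {ρ : ℝ → ℝ} (hu : Tst u)
    (hρ : Tst ρ) {L : ℝ}
    (hL : 1 ≤ L) : ‖((Taa c (pr (wt (qol j) (kL u L)) ρ) c.Q.vac : D) : Completion D)‖ ≤
      ‖taL c (sch (pr (wt (qol j) u) ρ))‖ := by
  obtain ⟨s, s0, s1, e⟩ := qol_kL j hL
  have L0 : 0 < L := by linarith
  have q := tst_wt (smooth_qol j) hu
  have p := Ap.test_pr (Ap.tst_kL q L0) hρ
  have e' : pr (wt (qol j) (kL u L)) ρ = fun z => (s : ℂ) * pr (kL (wt (qol j) u) L) ρ z := by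
    funext z
    simp only [pr, e]
    push_cast
    ring
  have k := congrArg norm (Far.usc_Tv g q hρ L0)
  rw [Usc, g.ug_norm, norm_smul, Complex.norm_real, Real.norm_of_nonneg L0.le] at k
  change ‖c.Tv _‖ ≤ _
  rw [taL_sch (Ap.test_pr q hρ), k, e', ← taL_sch (Ap.sw_cmul _ p), Ap.sch_cmul _ p, map_smul,
    taL_sch p, norm_smul, Complex.norm_real, Real.norm_of_nonneg s0]
  gcongr

theorem small [Fact c.can] (g : GRP c) (j : Fin 4) {u κ : P3 → ℝ} {ρ : ℝ → ℝ}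
    (hu : ContDiff ℝ ∞ u) (hκ : Cut κ)
    (hρ : Tst ρ) (s : ℝ) : Tendsto (fun L : ℝ => ((Taa c (pr (wt (qol j)
      (kL (fun y => u y * df κ (s / L) y) L)) ρ) c.Q.vac : D) : Completion D)) atTop (𝓝 0) := by
  obtain ⟨K, r, hK, -, r0, h⟩ := exK hκ
  have q := smooth_qol j
  have k := hκ.1.1
  have p := hρ.1
  have F : Api4.Fam (ball (0 : ℝ) r) fun ε => pr (wt (qol j) fun y => u y * df κ ε y) ρ := by
    refine Api4.fam_of_compact isOpen_ball (ContDiff.contDiffOn ?_)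
      (plE.toHomeomorph.isCompact_preimage.2 (hK.prod hρ.2.isCompact)) fun ε hε z hz => ?_
    · simp only [pr, wt, df]
      exact Ap.smooth_cx (by fun_prop)
    · by_contra n
      have := Ap.tsupport_pr _ _ (subset_tsupport _ n)
      exact hz ⟨h ε (by simpa using hε) (tsupport_mul_subset_right (tsupport_wt _ _ this.1)), this.2⟩
  have t := (((taL c).continuous.tendsto _).comp (F.continuousAt (mem_ball_self r0))).comp
    (tendsto_const_nhds (x := s).div_atTop tendsto_id)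
  have z : sch (pr (wt (qol j) fun y => u y * df κ 0 y) ρ) = 0 :=
    Ap.sch_eq fun z => by simp [pr, wt, df, Prod.mk_zero_zero]
  simp only [z, map_zero] at t
  refine squeeze_zero_norm' ?_ (by simpa using t.norm)
  filter_upwards [eventually_ge_atTop 1] with L hL
  exact norm_le g j (Ap.cs_mul_l hu (tst_df hκ.1 _)) hρ hL

theorem rest [Fact c.can] (t : Tools c) {w κ f ρ θ1 f3} (hw : TP2 c.Q c.T false w) (hκ : Cut κ)
    (hf : Tst f)
    (hρ : Tst ρ) (sρ : tsupport ρ ⊆ Set.Icc (-1 / 2) (1 / 2)) (h1 : Tst θ1)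
    (h3 : In {z | be z < 0} f3) (s : ℝ) : ∀ᶠ δ in 𝓝[>] (0 : ℝ), Tendsto (fun L : ℝ =>
      inner ℂ (w0L w (pairF sq2 (df κ (s / L)) f ρ θ1 δ L)) (c.Th f3)) atTop (𝓝 0) := by
  obtain ⟨W, hW⟩ : ∃ W, IsW c W := t.wk
  obtain ⟨u0, hu, su⟩ := h3.2.1.isCompact.exists_forall_le' (f := fun z => -be z) (a := 0)
    cont_be.neg.continuousOn fun z hz => neg_pos.2 (h3.2.2 hz)
  obtain ⟨a, sa⟩ := (h3.2.1.isCompact.image cont_al).bddBelow
  have tri := t.tri.fld f θ1 (-a) u0 f3 hf h1 ⟨h3.1, h3.2.1, fun z hz =>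
    ⟨le_neg.1 (su z hz), (neg_neg a).trans_le (sa ⟨z, hz, rfl⟩)⟩⟩
  obtain ⟨K, r, hK, K0, r0, h⟩ := exK hκ
  obtain ⟨B, -, hB⟩ := Ap.ex_Icc h1
  obtain ⟨σ, c0, A0, hσ, c00, A01, sσ, hs⟩ := t.ann.split2 K f B hK K0 hf
  filter_upwards [Ioo_mem_nhdsGT (lt_min one_pos hu)] with δ hδ
  obtain ⟨δ0, δ1, δu⟩ : 0 < δ ∧ δ < 1 ∧ δ < u0 := by simpa only [Set.mem_Ioo, lt_min_iff] using hδ
  have td := Ap.tst_dlt hρ δ0.ne'
  have sd := Ap.tsupport_dlt_Icc sρ δ0
  have hσ' : ContDiff ℝ ∞ fun y => 1 - σ y := contDiff_const.sub hσ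
  have lim := tendsto_finset_sum Finset.univ fun j _ =>
    ((tendsto_const_nhds (x := ((c.Thf (bar f3) (c.Thf (pr (wt (pol j) f) θ1) c.Q.vac) : D) :
      Completion D))).inner (𝕜 := ℂ) (small t.grp j hσ hκ td s)).add
    ((small t.grp j hσ' hκ td s).inner (𝕜 := ℂ) (tendsto_const_nhds
      (x := ((c.Thf (pr (wt (pol j) f) θ1) (c.Thf f3 c.Q.vac) : D) : Completion D))))
  simp only [inner_zero_left, inner_zero_right, add_zero, Finset.sum_const_zero] at lim
  refine lim.congr' ?_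
  have t0 : Tendsto (fun L : ℝ => |s / L|) atTop (𝓝 0) := by
    simpa using (tendsto_const_nhds (x := s).div_atTop tendsto_id).abs
  filter_upwards [eventually_ge_atTop A0, eventually_gt_atTop (-a / c0), t0.eventually_lt_const r0]
    with L l1 l2 l3
  have L0 : 0 < L := by linarith
  have tg := tst_df hκ.1 (s / L)
  have tL : Tst fun y => σ y * df κ (s / L) y := Ap.cs_mul_l hσ tg
  have tR : Tst fun y => (1 - σ y) * df κ (s / L) y := Ap.cs_mul_l hσ' tg
  obtain ⟨s1, s2⟩ := hs _ sq2 ρ θ1 δ L tg (h _ l3) smooth_sq2 hρ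
    (sρ.trans (Set.Icc_subset_Icc (by norm_num) (by norm_num))) h1 hB δ0 δ1.le l1
  rw [pairF_add t.ann smooth_sq2 tg tL tR hf hρ h1 δ0 L0 fun y => by ring, map_add,
    t.cv.late w W _ hw hW s1, t.cv.early w W _ hw hW s2,
    (t.cv.pair W _ _ _ _ _ _ hW tL hf hρ h1 δ0 L0).1,
    (t.cv.pair W _ _ _ _ _ _ hW tR hf hρ h1 δ0 L0).2, ← Finset.sum_add_distrib, sum_inner]
  refine Finset.sum_congr rfl fun j _ => ?_
  have tq := fun g (hg : Tst g) => tst_wt (smooth_qol j) (Ap.tst_kL hg L0)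
  rw [inner_add_left, tri.right j _ (Ap.in_pr (tq _ tR) td fun _ _ _ => trivial),
    tri.left j _ (Ap.in_pr (tq _ tL) td fun z h1 h2 => ⟨?_, ?_⟩), Ap.bar_pr]
  · have : al z / L ≤ -c0 :=
      sσ (tsupport_mul_subset_left (Ap.tsupport_kL _ L (tsupport_wt _ _ h1)))
    rw [div_le_iff₀ L0] at this
    rw [div_lt_iff₀ c00] at l2
    linarith
  · linarith [(sd h2).1]

end Sh

open Sh Ub

theorem sh_row {D : Type*} [NormedAddCommGroup D] [InnerProductSpace ℂ D] (c : Ctx D)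
    [Fact c.can] (t : Tools c) (h0 : CONK0 c) : CONK c := by
  intro w κ f ρ θ1 θ f3 hw hκ hf hρ sρ h1 hθ h3 η hη
  obtain ⟨R, hR⟩ := hf.2.isCompact.isBounded.subset_closedBall 0
  set s := R + 2
  have tf := tst_tl s hf
  have sf : tsupport (tl s f) ⊆ {y | y.1 < -1} := fun y hy => by
    have := (norm_fst_le _).trans (mem_closedBall_zero_iff.1 (hR
      (tsupport_comp_subset_preimage f (f := fun y : P3 => y + (s, 0)) (by fun_prop) hy)))
    have := (le_abs_self _).trans this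
    simp only [Prod.fst_add, s] at this
    show y.1 < -1
    linarith
  have h3' : In {z | be z < 0} fun z => f3 (z + s • va) :=
    Ap.in_mono (Ap.in_tr _ h3) fun z hz => by simpa using hz
  filter_upwards [h0 w κ _ ρ θ1 θ _ hw hκ tf sf hρ sρ h1 hθ h3' _ (half_pos hη),
    rest t hw hκ tf hρ sρ h1 h3' s, self_mem_nhdsWithin] with δ a b δ0
  replace δ0 : 0 < δ := δ0
  filter_upwards [a, b.norm.eventually_le_const (norm_zero.trans_lt (half_pos hη)),
    eventually_gt_atTop 0] with L a b L0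
  have tk := tst_tl (s / L) hκ.1
  obtain ⟨k, e⟩ := (t.cv.cvw _ _ hw).tra (s • va) (pairF sq2 κ f ρ θ1 δ L)
    (pairF sq2 (tl (s / L) κ) (tl s f) ρ θ1 δ L) fun x y => by
      rw [t.ann.app _ _ _ _ _ _ _ smooth_sq2 tk tf hρ h1 δ0 L0,
        t.ann.app _ _ _ _ _ _ _ smooth_sq2 hκ.1 hf hρ h1 δ0 L0]
      simp only [pl_va, be_va', tx_va', tl, kL, Prod.fst_add, Prod.snd_add, Prod.mk_add_mk, add_div,
        add_zero]
  rw [pairF_add t.ann smooth_sq2 tk hκ.1 (tst_df hκ.1 (s / L)) tf hρ h1 δ0 L0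
    fun y => by simp [tl, df], map_add] at e
  rw [t.cv.w0] at a ⊢
  change ‖inner ℂ (w0L w (pairF sq2 κ f ρ θ1 δ L)) _ - _‖ ≤ η
  rw [e, inner_add_left, inner_smul_left, perp_th t.grp h3.1, mul_zero, add_zero,
    ← th_tr t.grp (s • va) h3.1, Ut, t.grp.ug_inner, inner_add_left]
  change ‖_ - _ * c.AbK f _ (Pa c.Q s _)‖ ≤ η
  rw [abk t.grp s hf (Ap.tst_abv h1 hθ δ0), add_sub_right_comm]
  exact (norm_add_le_of_le a b).trans_eq (add_halves η)

end

end Vale.Agent.P352X.ZZ.CK
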